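import Vale.Agent.P146.H196.Gibm

/-!
A spin `τ = ±1` which is flipped by an involution `φ` of the configuration space, the coordinates of
`A0` being odd and the other ones even (`Flip`). The thermal variance of any observable is at least
the one inside the pairs `{w, φ w}` (`var_pair`), hence
`(2 - x) Var(τ - ∑ c_e k S_e) + |c|^2 ≥ c1 ⟨sech^2 h⟩` for all `c`, `h` = the field of the row on the
spin (`schur_low`).
-/

open MeasureTheory ProbabilityTheory Filter Topology

namespace Vale.Agent.P146.H620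

open Vale.Agent.P146.H196

set_option linter.unusedSectionVars false

variable {ι : Type} [Fintype ι] [DecidableEq ι] {Ω : Type} [MeasurableSpace Ω]

/-- The flip of one site: an involution of the configurations which preserves the a priori measure
and changes the sign of exactly the energies of the row `A0`. -/
structure Flip (μ : Measure Ω) (S : ι → Ω → ℝ) (A0 : Finset ι) (φ : Ω → Ω) : Prop where
  mp : MeasurePreserving φ μ μ
  inv : ∀ w, φ (φ w) = w
  odd : ∀ e ∈ A0, ∀ w, S e (φ w) = -S e w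
  even : ∀ e ∉ A0, ∀ w, S e (φ w) = S e w

/-- the field of the row, times the spin -/
noncomputable def hr (k : ℝ) (S : ι → Ω → ℝ) (A0 : Finset ι) (u : ι → ℝ) (w : Ω) : ℝ :=
  k * ∑ e ∈ A0, S e w * u e

/-- the square of the hyperbolic secant of the field -/
noncomputable def s2 (k : ℝ) (S : ι → Ω → ℝ) (A0 : Finset ι) (u : ι → ℝ) (w : Ω) : ℝ :=
  (Real.cosh (hr k S A0 u w))⁻¹ ^ 2

variable {μ : Measure Ω} {k : ℝ} {S : ι → Ω → ℝ} {M0 : ℝ} {A0 : Finset ι} {φ : Ω → Ω}
  {u : ι → ℝ}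

lemma inv_cosh_pos (y : ℝ) : 0 < (Real.cosh y)⁻¹ := inv_pos.2 (Real.cosh_pos y)

lemma inv_cosh_le_one (y : ℝ) : (Real.cosh y)⁻¹ ≤ 1 := inv_le_one_of_one_le₀ (Real.one_le_cosh y)

lemma s2_nonneg (w : Ω) : 0 ≤ s2 k S A0 u w := sq_nonneg _

lemma s2_le_one (w : Ω) : s2 k S A0 u w ≤ 1 :=
  pow_le_one₀ (inv_cosh_pos _).le (inv_cosh_le_one _)

lemma bm_hr (hG : GM μ S M0) (k : ℝ) (A0 : Finset ι) (u : ι → ℝ) : Bm (hr k S A0 u) := by
  unfold hr
  refine (Bm.sum A0 fun e _ => ?_).const_mul k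
  simpa [mul_comm] using (hG.bS e).const_mul (u e)

lemma meas_cosh_inv {h : Ω → ℝ} (hh : Measurable h) : Measurable fun w => (Real.cosh (h w))⁻¹ :=
  (Real.continuous_cosh.measurable.comp hh).inv

lemma bm_s2 (hG : GM μ S M0) (k : ℝ) (A0 : Finset ι) (u : ι → ℝ) : Bm (s2 k S A0 u) := by
  refine Bm.of (C := 1) ((meas_cosh_inv (bm_hr hG k A0 u).meas).pow_const 2) fun w => ?_
  rw [abs_of_nonneg (s2_nonneg w)]
  exact s2_le_one w

namespace Flip

variable (hF : Flip μ S A0 φ)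
include hF

lemma meas : Measurable φ := hF.mp.measurable

lemma hr_flip (k : ℝ) (u : ι → ℝ) (w : Ω) : hr k S A0 u (φ w) = -hr k S A0 u w := by
  unfold hr
  rw [← mul_neg, ← Finset.sum_neg_distrib]
  congr 1
  refine Finset.sum_congr rfl fun e he => ?_
  rw [hF.odd e he]
  ring

lemma s2_flip (k : ℝ) (u : ι → ℝ) (w : Ω) : s2 k S A0 u (φ w) = s2 k S A0 u w := by
  unfold s2
  rw [hF.hr_flip, Real.cosh_neg]

/-- the weight splits into an even part and the exponential of the field -/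
lemma ezm_eq (k : ℝ) (u : ι → ℝ) (w : Ω) : ezm k S u w =
    Real.exp (k * ∑ e ∈ A0ᶜ, S e w * u e) * Real.exp (hr k S A0 u w) := by
  unfold ezm hr
  rw [← Real.exp_add, ← mul_add]
  congr 2
  exact (Finset.sum_compl_add_sum A0 _).symm

lemma ezm_flip (k : ℝ) (u : ι → ℝ) (w : Ω) : ezm k S u (φ w) =
    Real.exp (k * ∑ e ∈ A0ᶜ, S e w * u e) * Real.exp (-hr k S A0 u w) := by
  rw [hF.ezm_eq, hF.hr_flip]
  congr 3
  refine Finset.sum_congr rfl fun e he => ?_
  rw [hF.even e (Finset.mem_compl.1 he)]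

lemma integral_flip (f : Ω → ℝ) : ∫ w, f (φ w) ∂μ = ∫ w, f w ∂μ := by
  have hinv : Function.LeftInverse φ φ := hF.inv
  let E : Ω ≃ᵐ Ω := ⟨⟨φ, φ, hinv, hinv⟩, hF.meas, hF.meas⟩
  have hE : MeasurePreserving E μ μ := hF.mp
  exact hE.integral_comp' (g := f)

end Flip

/-- two numbers with weights -/
lemma two_pt {p q a b : ℝ} (hp : 0 < p) (hq : 0 < q) :
    p * q / (p + q) * (a - b) ^ 2 ≤ a ^ 2 * p + b ^ 2 * q := by
  rw [div_mul_eq_mul_div, div_le_iff₀ (by positivity)]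
  nlinarith [sq_nonneg (p * a + q * b)]

lemma exp_pair (y : ℝ) : Real.exp y * Real.exp (-y) / (Real.exp y + Real.exp (-y)) =
    (Real.cosh y)⁻¹ / 2 := by
  rw [← Real.exp_add, add_neg_cancel, Real.exp_zero, Real.cosh_eq]
  have : 0 < Real.exp y + Real.exp (-y) := by positivity
  field_simp

/-- **The variance is at least the variance inside the pairs.** -/
theorem var_pair (hG : GM μ S M0) (hF : Flip μ S A0 φ) (k : ℝ) (u : ι → ℝ) {f : Ω → ℝ}
    (hf : Bm f) (m : ℝ) :
    avm μ k S (fun w => s2 k S A0 u w * ((f w - f (φ w)) / 2) ^ 2) u ≤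
      avm μ k S (fun w => (f w - m) ^ 2) u := by
  unfold avm
  refine div_le_div_of_nonneg_right ?_ (hG.Z_pos k u).le
  have hff : Bm fun w => f (φ w) := by
    obtain ⟨C, hC, hb⟩ := hf.bd
    exact Bm.of (hf.meas.comp hF.meas) fun w => hb (φ w)
  have h1 : Integrable (fun w => ezm k S u w * (s2 k S A0 u w * ((f w - f (φ w)) / 2) ^ 2)) μ :=
    hG.int k ((bm_s2 hG k A0 u).mul (by
      have := (((hf.sub hff).const_mul (1 / 2)).pow 2)
      convert this using 2 with w
      ring)) u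
  have h2 : Integrable (fun w => ezm k S u w * (f w - m) ^ 2) μ :=
    hG.int k ((hf.sub (Bm.const m)).pow 2) u
  have i1 : Integrable (fun w => ezm k S u (φ w) *
      (s2 k S A0 u (φ w) * ((f (φ w) - f (φ (φ w))) / 2) ^ 2)) μ := by
    have hinv : Function.LeftInverse φ φ := hF.inv
    let E : Ω ≃ᵐ Ω := ⟨⟨φ, φ, hinv, hinv⟩, hF.meas, hF.meas⟩
    have hE : MeasurePreserving E μ μ := hF.mp
    exact (hE.integrable_comp_emb E.measurableEmbedding).2 h1
  have i2 : Integrable (fun w => ezm k S u (φ w) * (f (φ w) - m) ^ 2) μ := by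
    have hinv : Function.LeftInverse φ φ := hF.inv
    let E : Ω ≃ᵐ Ω := ⟨⟨φ, φ, hinv, hinv⟩, hF.meas, hF.meas⟩
    have hE : MeasurePreserving E μ μ := hF.mp
    exact (hE.integrable_comp_emb E.measurableEmbedding).2 h2
  have e1 := hF.integral_flip (fun w => ezm k S u w *
    (s2 k S A0 u w * ((f w - f (φ w)) / 2) ^ 2))
  have e2 := hF.integral_flip (fun w => ezm k S u w * (f w - m) ^ 2)
  have key : ∫ w, (ezm k S u w * (s2 k S A0 u w * ((f w - f (φ w)) / 2) ^ 2) +
      ezm k S u (φ w) * (s2 k S A0 u (φ w) * ((f (φ w) - f (φ (φ w))) / 2) ^ 2)) ∂μ ≤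
      ∫ w, (ezm k S u w * (f w - m) ^ 2 + ezm k S u (φ w) * (f (φ w) - m) ^ 2) ∂μ := by
    refine integral_mono (h1.add i1) (h2.add i2) fun w => ?_
    simp only
    rw [hF.inv, hF.s2_flip, hF.ezm_flip, hF.ezm_eq]
    obtain ⟨y, hy⟩ : ∃ y, y = hr k S A0 u w := ⟨_, rfl⟩
    obtain ⟨E0, hE0⟩ : ∃ E0, E0 = Real.exp (k * ∑ e ∈ A0ᶜ, S e w * u e) := ⟨_, rfl⟩
    have hE0' : 0 < E0 := by rw [hE0]; exact Real.exp_pos _
    unfold s2
    rw [← hy, ← hE0]
    have h3 := two_pt (a := f w - m) (b := f (φ w) - m) (Real.exp_pos y) (Real.exp_pos (-y))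
    rw [exp_pair] at h3
    have h4 : (Real.cosh y)⁻¹ ^ 2 * (Real.exp y + Real.exp (-y)) = 2 * (Real.cosh y)⁻¹ := by
      have : Real.exp y + Real.exp (-y) = 2 * Real.cosh y := by
        rw [Real.cosh_eq]; ring
      rw [this]
      have h5 := (Real.cosh_pos y).ne'
      field_simp
    have h5 : E0 * Real.exp y * ((Real.cosh y)⁻¹ ^ 2 * ((f w - f (φ w)) / 2) ^ 2) +
        E0 * Real.exp (-y) * ((Real.cosh y)⁻¹ ^ 2 * ((f (φ w) - f w) / 2) ^ 2) =
        E0 * (((Real.cosh y)⁻¹ ^ 2 * (Real.exp y + Real.exp (-y))) *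
          ((f w - f (φ w)) ^ 2 / 4)) := by ring
    rw [h5, h4]
    have h6 : E0 * Real.exp y * (f w - m) ^ 2 + E0 * Real.exp (-y) * (f (φ w) - m) ^ 2 =
        E0 * ((f w - m) ^ 2 * Real.exp y + (f (φ w) - m) ^ 2 * Real.exp (-y)) := by ring
    rw [h6]
    refine mul_le_mul_of_nonneg_left ?_ hE0'.le
    refine le_trans (le_of_eq ?_) h3
    ring
  rw [integral_add h1 i1, integral_add h2 i2, e1, e2] at key
  linarith

/-- **The Schur complement is bounded below**: for every vector `c`. -/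
theorem schur_low (hG : GM μ S M0) (hF : Flip μ S A0 φ) (k : ℝ) (u : ι → ℝ) {τ : Ω → ℝ}
    (hτ : Measurable τ) (hτ1 : ∀ w, τ w ^ 2 = 1) (hτo : ∀ w, τ (φ w) = -τ w) {b2 : ℝ}
    (hb : ∀ w, ∑ e ∈ A0, (k * S e w) ^ 2 ≤ b2) (hb0 : 0 < b2) (c : ι → ℝ) {p : ℝ} (hp : 1 ≤ p)
    (m : ℝ) :
    min (1 / 4) (1 / (4 * b2)) * avm μ k S (s2 k S A0 u) u ≤
      p * avm μ k S (fun w => (τ w - (∑ e, c e * (k * S e w)) - m) ^ 2) u + ∑ e, c e ^ 2 := by
  have hbτ : Bm τ := Bm.of (C := 1) hτ fun w => by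
    have h := hτ1 w
    have : |τ w| ^ 2 = 1 := by rw [sq_abs, h]
    nlinarith [abs_nonneg (τ w)]
  have hs1 : avm μ k S (s2 k S A0 u) u ≤ 1 := by
    refine (le_abs_self _).trans (hG.abs_av_le k (bm_s2 hG k A0 u).meas (C := 1) (fun w => ?_) u)
    rw [abs_of_nonneg (s2_nonneg w)]
    exact s2_le_one w
  have hs0 : 0 ≤ avm μ k S (s2 k S A0 u) u := hG.av_nonneg k (fun w => s2_nonneg w) u
  have hbf : Bm fun w => τ w - (∑ e, c e * (k * S e w)) :=
    hbτ.sub (Bm.sum Finset.univ fun e _ => ((hG.bS e).const_mul k).const_mul (c e))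
  have hv0 : 0 ≤ avm μ k S (fun w => (τ w - (∑ e, c e * (k * S e w)) - m) ^ 2) u :=
    hG.av_nonneg k (fun w => sq_nonneg _) u
  have hc0 : 0 ≤ ∑ e, c e ^ 2 := Finset.sum_nonneg fun e _ => sq_nonneg _
  by_cases hc : ∑ e, c e ^ 2 ≤ 1 / (4 * b2)
  · -- the shift is small
    have h1 := var_pair hG hF k u hbf m
    have h2 : avm μ k S (fun w => 1 / 4 * s2 k S A0 u w) u ≤
        avm μ k S (fun w => s2 k S A0 u w * (((τ w - (∑ e, c e * (k * S e w))) -
          (τ (φ w) - (∑ e, c e * (k * S e (φ w))))) / 2) ^ 2) u := by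
      refine hG.av_mono k ((bm_s2 hG k A0 u).const_mul _) ((bm_s2 hG k A0 u).mul ?_) (fun w => ?_) u
      · have hff : Bm fun w => τ (φ w) - (∑ e, c e * (k * S e (φ w))) := by
          obtain ⟨C, hC, hb⟩ := hbf.bd
          exact Bm.of (hbf.meas.comp hF.meas) fun w => hb (φ w)
        have := (((hbf.sub hff).const_mul (1 / 2)).pow 2)
        convert this using 2 with w
        ring
      · have e1 : ((τ w - (∑ e, c e * (k * S e w))) -
            (τ (φ w) - (∑ e, c e * (k * S e (φ w))))) / 2 =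
            τ w - ∑ e ∈ A0, c e * (k * S e w) := by
          rw [hτo, ← Finset.sum_add_sum_compl A0 (fun e => c e * (k * S e w)),
            ← Finset.sum_add_sum_compl A0 (fun e => c e * (k * S e (φ w)))]
          have e2 : ∑ e ∈ A0, c e * (k * S e (φ w)) = -∑ e ∈ A0, c e * (k * S e w) := by
            rw [← Finset.sum_neg_distrib]
            refine Finset.sum_congr rfl fun e he => ?_
            rw [hF.odd e he]
            ring
          have e3 : ∑ e ∈ A0ᶜ, c e * (k * S e (φ w)) = ∑ e ∈ A0ᶜ, c e * (k * S e w) := by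
            refine Finset.sum_congr rfl fun e he => ?_
            rw [hF.even e (Finset.mem_compl.1 he)]
          rw [e2, e3]
          ring
        rw [e1, mul_comm (1 / 4 : ℝ)]
        refine mul_le_mul_of_nonneg_left ?_ (s2_nonneg w)
        obtain ⟨y, hy⟩ : ∃ y, y = ∑ e ∈ A0, c e * (k * S e w) := ⟨_, rfl⟩
        rw [← hy]
        have hy2 : y ^ 2 ≤ 1 / 4 := by
          rw [hy]
          refine (Finset.sum_mul_sq_le_sq_mul_sq A0 _ _).trans ?_
          have h3 : ∑ e ∈ A0, c e ^ 2 ≤ 1 / (4 * b2) :=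
            (Finset.sum_le_univ_sum_of_nonneg fun e => sq_nonneg (c e)).trans hc
          calc (∑ e ∈ A0, c e ^ 2) * ∑ e ∈ A0, (k * S e w) ^ 2 ≤ 1 / (4 * b2) * b2 :=
                mul_le_mul h3 (hb w) (Finset.sum_nonneg fun e _ => sq_nonneg _) (by positivity)
            _ = 1 / 4 := by field_simp
        have hy3 : |y| ≤ 1 / 2 := by
          rw [← Real.sqrt_sq_eq_abs]
          exact Real.sqrt_le_iff.2 ⟨by norm_num, by linarith⟩
        have ht := hτ1 w
        have ht2 : |τ w| = 1 := by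
          have : |τ w| ^ 2 = 1 := by rw [sq_abs, ht]
          nlinarith [abs_nonneg (τ w)]
        have h4 : τ w * y ≤ 1 / 2 := by
          refine (le_abs_self _).trans ?_
          rw [abs_mul, ht2, one_mul]
          exact hy3
        nlinarith [sq_nonneg (τ w * y - 1 / 2)]
    rw [av_mul] at h2
    have h3 : min (1 / 4) (1 / (4 * b2)) * avm μ k S (s2 k S A0 u) u ≤
        1 / 4 * avm μ k S (s2 k S A0 u) u := mul_le_mul_of_nonneg_right (min_le_left _ _) hs0
    have h4 := h2.trans h1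
    nlinarith
  · push Not at hc
    have h3 : min (1 / 4) (1 / (4 * b2)) * avm μ k S (s2 k S A0 u) u ≤ 1 / (4 * b2) * 1 :=
      mul_le_mul (min_le_right _ _) hs1 hs0 (by positivity)
    nlinarith

end Vale.Agent.P146.H620
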