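import Vale.Agent.P146.H196.Gib2
import Vale.Agent.P146.H620.Sch

/-!
The mean of `⟨sech^2 h⟩`, `h` the field of a private row `A0`, conditionally on any set `K` of
coordinates disjoint from the row: it is at least `exp (-3 b2)`, `b2` a bound of the variance of
the field (`sech_low`).
-/

open MeasureTheory ProbabilityTheory Filter Topology

namespace Vale.Agent.P146.H620

open Vale.Agent.P157.Lv Vale.Agent.P146.H196 Vale.Agent.P146.H646

set_option linter.unusedSectionVars false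

variable {ι : Type} [Fintype ι] [DecidableEq ι] {Ω : Type} [MeasurableSpace Ω]

variable {μ : Measure Ω} {k : ℝ} {S : ι → Ω → ℝ} {M0 : ℝ} {A0 : Finset ι} {φ : Ω → Ω}

/-- the even part of the weight -/
noncomputable def ez0 (k : ℝ) (S : ι → Ω → ℝ) (A0 : Finset ι) (u : ι → ℝ) (w : Ω) : ℝ :=
  Real.exp (k * ∑ e ∈ A0ᶜ, S e w * u e)

/-- the partition function without the row -/
noncomputable def Z0 (μ : Measure Ω) (k : ℝ) (S : ι → Ω → ℝ) (A0 : Finset ι) (u : ι → ℝ) : ℝ :=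
  ∫ w, ez0 k S A0 u w ∂μ

lemma ez0_pos (u : ι → ℝ) (w : Ω) : 0 < ez0 k S A0 u w := Real.exp_pos _

lemma bm_ez0 (hG : GM μ S M0) (k : ℝ) (A0 : Finset ι) (u : ι → ℝ) : Bm (ez0 k S A0 u) := by
  unfold ez0
  refine Bm.exp ((Bm.sum A0ᶜ fun e _ => ?_).const_mul k)
  simpa [mul_comm] using (hG.bS e).const_mul (u e)

lemma Z0_pos (hG : GM μ S M0) (k : ℝ) (A0 : Finset ι) (u : ι → ℝ) : 0 < Z0 μ k S A0 u := by
  have := hG.fin
  have : NeZero μ := ⟨hG.ne⟩
  exact integral_exp_pos (bm_ez0 hG k A0 u).integrable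

lemma ez0_glue (u z : ι → ℝ) (w : Ω) : ez0 k S A0 (glue A0ᶜ z u) w = ez0 k S A0 z w := by
  unfold ez0
  congr 2
  refine Finset.sum_congr rfl fun e he => ?_
  rw [glue_mem he]

lemma hr_glue (u z : ι → ℝ) (w : Ω) : hr k S A0 (glue A0ᶜ z u) w = hr k S A0 u w := by
  unfold hr
  congr 1
  refine Finset.sum_congr rfl fun e he => ?_
  rw [glue_not_mem (by simpa using he)]

lemma Z0_glue (u z : ι → ℝ) : Z0 μ k S A0 (glue A0ᶜ z u) = Z0 μ k S A0 z := by
  unfold Z0
  simp only [ez0_glue]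

lemma bm_cosh {h : Ω → ℝ} (hh : Bm h) : Bm fun w => Real.cosh (h w) := by
  have h1 := (hh.exp.add (hh.const_mul (-1)).exp).const_mul (1 / 2)
  convert h1 using 2 with w
  rw [Real.cosh_eq]
  ring_nf

/-- symmetrization of an integral with an even factor -/
lemma sym_int (hG : GM μ S M0) (hF : Flip μ S A0 φ) (k : ℝ) (u : ι → ℝ) {f : Ω → ℝ} (hf : Bm f)
    (hev : ∀ w, f (φ w) = f w) :
    ∫ w, ezm k S u w * f w ∂μ = ∫ w, ez0 k S A0 u w * (Real.cosh (hr k S A0 u w) * f w) ∂μ := by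
  have := hG.fin
  have b0 := bm_ez0 hG k A0 u
  have bh := bm_hr hG k A0 u
  have e1 := hF.integral_flip (fun w => ezm k S u w * f w)
  have e2 : ∀ w, ezm k S u w * f w = ez0 k S A0 u w * (Real.exp (hr k S A0 u w) * f w) := by
    intro w
    rw [hF.ezm_eq k u w]
    unfold ez0
    ring
  have e3 : ∀ w, ezm k S u (φ w) * f (φ w) =
      ez0 k S A0 u w * (Real.exp (-hr k S A0 u w) * f w) := by
    intro w
    rw [hF.ezm_flip k u w, hev]
    unfold ez0
    ring
  simp only [e3] at e1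
  have i2 : Integrable (fun w => ez0 k S A0 u w * (Real.exp (hr k S A0 u w) * f w)) μ :=
    (b0.mul (bh.exp.mul hf)).integrable
  have i3 : Integrable (fun w => ez0 k S A0 u w * (Real.exp (-hr k S A0 u w) * f w)) μ := by
    have h3 : Bm fun w => -hr k S A0 u w := by simpa using bh.const_mul (-1)
    exact (b0.mul (h3.exp.mul hf)).integrable
  have e4 : ∫ w, ez0 k S A0 u w * (Real.cosh (hr k S A0 u w) * f w) ∂μ =
      (∫ w, ez0 k S A0 u w * (Real.exp (hr k S A0 u w) * f w) ∂μ +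
        ∫ w, ez0 k S A0 u w * (Real.exp (-hr k S A0 u w) * f w) ∂μ) / 2 := by
    rw [← integral_add i2 i3, ← integral_div]
    refine integral_congr_ae (Filter.Eventually.of_forall fun w => ?_)
    simp only
    rw [Real.cosh_eq]
    ring
  rw [e4, e1]
  simp only [e2]
  ring

lemma Zm_eq (hG : GM μ S M0) (hF : Flip μ S A0 φ) (k : ℝ) (u : ι → ℝ) :
    Zm μ k S u = ∫ w, ez0 k S A0 u w * Real.cosh (hr k S A0 u w) ∂μ := by
  have h := sym_int hG hF k u (Bm.const 1) fun _ => rfl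
  simp only [mul_one] at h
  exact h

/-- the partition function without the row is smaller -/
lemma Z0_le (hG : GM μ S M0) (hF : Flip μ S A0 φ) (k : ℝ) (u : ι → ℝ) :
    Z0 μ k S A0 u ≤ Zm μ k S u := by
  have := hG.fin
  rw [Zm_eq hG hF]
  unfold Z0
  refine integral_mono (bm_ez0 hG k A0 u).integrable
    ((bm_ez0 hG k A0 u).mul (bm_cosh (bm_hr hG k A0 u))).integrable fun w => ?_
  simp only
  exact le_mul_of_one_le_right (ez0_pos u w).le (Real.one_le_cosh _)

/-- **pointwise**: the mean of `sech^2` is at least the square of the ratio of the partition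
functions -/
lemma s2_ge (hG : GM μ S M0) (hF : Flip μ S A0 φ) (k : ℝ) (u : ι → ℝ) :
    (Z0 μ k S A0 u / Zm μ k S u) ^ 2 ≤ avm μ k S (s2 k S A0 u) u := by
  have := hG.fin
  have hZ := hG.Z_pos k u
  have b0 := bm_ez0 hG k A0 u
  have bh := bm_hr hG k A0 u
  have bc := bm_cosh bh
  have bi : Bm fun w => (Real.cosh (hr k S A0 u w))⁻¹ :=
    Bm.of (C := 1) (meas_cosh_inv bh.meas) fun w => by
      rw [abs_of_pos (inv_cosh_pos _)]
      exact inv_cosh_le_one _
  have e1 : avm μ k S (s2 k S A0 u) u =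
      (∫ w, ez0 k S A0 u w * (Real.cosh (hr k S A0 u w))⁻¹ ∂μ) / Zm μ k S u := by
    unfold avm
    rw [sym_int hG hF k u (bm_s2 hG k A0 u) (hF.s2_flip k u)]
    congr 1
    refine integral_congr_ae (Filter.Eventually.of_forall fun w => ?_)
    simp only
    unfold s2
    have h5 := (Real.cosh_pos (hr k S A0 u w)).ne'
    field_simp
  rw [e1, div_pow, div_le_div_iff₀ (by positivity) hZ]
  -- Cauchy-Schwarz in the form `∫ (s cosh - t)^2 / cosh ≥ 0`
  set C := ∫ w, ez0 k S A0 u w * (Real.cosh (hr k S A0 u w))⁻¹ ∂μ with hC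
  set W := Z0 μ k S A0 u with hW
  set Z := Zm μ k S u with hZd
  have hZe := Zm_eq hG hF k u
  have key : 0 ≤ W ^ 2 * Z - 2 * W * Z * W + Z ^ 2 * C := by
    have h1 : 0 ≤ ∫ w, ez0 k S A0 u w * ((Real.cosh (hr k S A0 u w))⁻¹ *
        (W * Real.cosh (hr k S A0 u w) - Z) ^ 2) ∂μ := by
      refine integral_nonneg fun w => ?_
      have := ez0_pos (k := k) (S := S) (A0 := A0) u w
      have := inv_cosh_pos (hr k S A0 u w)
      positivity
    have h2 : ∫ w, ez0 k S A0 u w * ((Real.cosh (hr k S A0 u w))⁻¹ *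
        (W * Real.cosh (hr k S A0 u w) - Z) ^ 2) ∂μ =
        W ^ 2 * Z - 2 * W * Z * W + Z ^ 2 * C := by
      have e2 : ∀ w, ez0 k S A0 u w * ((Real.cosh (hr k S A0 u w))⁻¹ *
          (W * Real.cosh (hr k S A0 u w) - Z) ^ 2) =
          (W ^ 2 * (ez0 k S A0 u w * Real.cosh (hr k S A0 u w)) -
            (2 * W * Z) * ez0 k S A0 u w) +
            Z ^ 2 * (ez0 k S A0 u w * (Real.cosh (hr k S A0 u w))⁻¹) := by
        intro w
        have h5 := (Real.cosh_pos (hr k S A0 u w)).ne'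
        field_simp
        ring
      simp only [e2]
      have j1 : Integrable (fun w => W ^ 2 * (ez0 k S A0 u w * Real.cosh (hr k S A0 u w))) μ :=
        ((b0.mul bc).const_mul _).integrable
      have j2 : Integrable (fun w => (2 * W * Z) * ez0 k S A0 u w) μ :=
        (b0.const_mul _).integrable
      have j3 : Integrable (fun w => Z ^ 2 * (ez0 k S A0 u w *
          (Real.cosh (hr k S A0 u w))⁻¹)) μ := ((b0.mul bi).const_mul _).integrable
      have j12 : Integrable (fun w => W ^ 2 * (ez0 k S A0 u w * Real.cosh (hr k S A0 u w)) -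
          (2 * W * Z) * ez0 k S A0 u w) μ := j1.sub j2
      rw [integral_add j12 j3, integral_sub j1 j2, integral_const_mul,
        integral_const_mul, integral_const_mul, ← hZe]
      rfl
    linarith
  have h3 : W ^ 2 * Z ≤ Z ^ 2 * C := by nlinarith
  linarith [mul_comm C (Z ^ 2)]

/-! ### the mean over the row -/

lemma int_exp_lin {κ : Type} [Fintype κ] (a : κ → ℝ) :
    ∫ z, Real.exp (∑ e, a e * z e) ∂(gI κ) = Real.exp ((∑ e, a e ^ 2) / 2) := by
  have h := H425.integral_shift (ι := κ) a (fun _ => (1 : ℝ))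
  simp only [mul_one] at h
  have h0 : ∫ _J : κ → ℝ, (1 : ℝ) ∂(Measure.pi fun _ : κ => gaussianReal 0 1) = 1 := by simp
  rw [h0] at h
  have h2 := H425.integral_shift (ι := κ) (-a) (fun _ => (1 : ℝ))
  simp only [mul_one] at h2
  rw [h0] at h2
  have e : ∀ J : κ → ℝ, Real.exp (-(∑ i, (-a) i * J i) - (∑ i, (-a) i ^ 2) / 2) =
      Real.exp (-((∑ e, a e ^ 2) / 2)) * Real.exp (∑ e, a e * J e) := by
    intro J
    rw [← Real.exp_add]
    congr 1
    have e3 : ∑ i, (-a) i * J i = -∑ i, a i * J i := by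
      rw [← Finset.sum_neg_distrib]
      exact Finset.sum_congr rfl fun i _ => by simp
    have e4 : ∑ i, (-a) i ^ 2 = ∑ i, a i ^ 2 := Finset.sum_congr rfl fun i _ => by simp
    rw [e3, e4]
    ring
  simp only [e] at h2
  rw [integral_const_mul] at h2
  have h3 : ∫ z, Real.exp (∑ e, a e * z e) ∂(gI κ) = Real.exp ((∑ e, a e ^ 2) / 2) *
      (Real.exp (-((∑ e, a e ^ 2) / 2)) * ∫ z, Real.exp (∑ e, a e * z e) ∂(gI κ)) := by
    rw [← mul_assoc, ← Real.exp_add, add_neg_cancel, Real.exp_zero, one_mul]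
  rw [h3, ← h2, mul_one]

lemma integrable_exp_lin {κ : Type} [Fintype κ] (a : κ → ℝ) :
    Integrable (fun z => Real.exp (∑ e, a e * z e)) (gI κ) := by
  by_contra h
  have h1 := int_exp_lin a
  rw [integral_undef h] at h1
  exact (Real.exp_pos _).ne h1

/-- the Gaussian mean of the squared hyperbolic cosine of the field of the row -/
lemma int_cosh_sq {b2 : ℝ} (hb : ∀ w, ∑ e ∈ A0, (k * S e w) ^ 2 ≤ b2) (w : Ω) :
    ∫ z, Real.cosh (hr k S A0 z w) ^ 2 ∂(gI ι) ≤ Real.exp (2 * b2) ∧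
      Integrable (fun z => Real.cosh (hr k S A0 z w) ^ 2) (gI ι) := by
  classical
  set a : ι → ℝ := fun e => if e ∈ A0 then k * S e w else 0 with ha
  have hs : ∀ z : ι → ℝ, hr k S A0 z w = ∑ e, a e * z e := by
    intro z
    unfold hr
    rw [ha, Finset.mul_sum, ← Finset.sum_filter_add_sum_filter_not Finset.univ (· ∈ A0)
      (fun e => (if e ∈ A0 then k * S e w else 0) * z e)]
    have h0 : ∑ e ∈ Finset.univ.filter (fun e => ¬ e ∈ A0),
        (if e ∈ A0 then k * S e w else 0) * z e = 0 := by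
      refine Finset.sum_eq_zero fun e he => ?_
      rw [if_neg (Finset.mem_filter.1 he).2, zero_mul]
    rw [h0, add_zero]
    have h1 : Finset.univ.filter (fun e => e ∈ A0) = A0 := by
      ext e
      simp
    rw [h1]
    refine Finset.sum_congr rfl fun e he => ?_
    rw [if_pos he]
    ring
  have ha2 : ∑ e, a e ^ 2 ≤ b2 := by
    refine le_trans (le_of_eq ?_) (hb w)
    rw [← Finset.sum_filter_add_sum_filter_not Finset.univ (· ∈ A0) (fun e => a e ^ 2)]
    have h0 : ∑ e ∈ Finset.univ.filter (fun e => ¬ e ∈ A0), a e ^ 2 = 0 := by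
      refine Finset.sum_eq_zero fun e he => ?_
      rw [ha]
      simp only
      rw [if_neg (Finset.mem_filter.1 he).2]
      ring
    rw [h0, add_zero]
    have h1 : Finset.univ.filter (fun e => e ∈ A0) = A0 := by
      ext e
      simp
    rw [h1]
    refine Finset.sum_congr rfl fun e he => ?_
    rw [ha]
    simp only
    rw [if_pos he]
  have e1 : ∀ z : ι → ℝ, Real.cosh (hr k S A0 z w) ^ 2 =
      (Real.exp (∑ e, (2 * a e) * z e) + Real.exp (∑ e, (-(2 * a e)) * z e)) / 4 + 1 / 2 := by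
    intro z
    rw [hs, Real.cosh_eq]
    have h2 : ∑ e, (2 * a e) * z e = (∑ e, a e * z e) + ∑ e, a e * z e := by
      rw [← Finset.sum_add_distrib]
      exact Finset.sum_congr rfl fun e _ => by ring
    have h3 : ∑ e, (-(2 * a e)) * z e = -(∑ e, a e * z e) + -∑ e, a e * z e := by
      rw [← Finset.sum_neg_distrib, ← Finset.sum_add_distrib]
      exact Finset.sum_congr rfl fun e _ => by ring
    rw [h2, h3, Real.exp_add, Real.exp_add]
    have h4 : Real.exp (∑ e, a e * z e) * Real.exp (-∑ e, a e * z e) = 1 := by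
      rw [← Real.exp_add, add_neg_cancel, Real.exp_zero]
    nlinarith [h4]
  have i1 := integrable_exp_lin (fun e => 2 * a e)
  have i2 := integrable_exp_lin (fun e => -(2 * a e))
  have i3 : Integrable (fun z : ι → ℝ => (Real.exp (∑ e, (2 * a e) * z e) +
      Real.exp (∑ e, (-(2 * a e)) * z e)) / 4 + 1 / 2) (gI ι) :=
    ((i1.add i2).div_const 4).add (integrable_const _)
  refine ⟨?_, by simpa only [e1] using i3⟩
  have i4 : Integrable (fun z : ι → ℝ => (Real.exp (∑ e, (2 * a e) * z e) +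
      Real.exp (∑ e, (-(2 * a e)) * z e)) / 4) (gI ι) := (i1.add i2).div_const 4
  simp only [e1]
  rw [integral_add i4 (integrable_const _), integral_div,
    integral_add i1 i2, int_exp_lin, int_exp_lin]
  have e2 : ∑ e, (2 * a e) ^ 2 = 4 * ∑ e, a e ^ 2 := by
    rw [Finset.mul_sum]
    exact Finset.sum_congr rfl fun e _ => by ring
  have e3 : ∑ e, (-(2 * a e)) ^ 2 = 4 * ∑ e, a e ^ 2 := by
    rw [Finset.mul_sum]
    exact Finset.sum_congr rfl fun e _ => by ring
  rw [e2, e3]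
  have h5 : Real.exp (4 * (∑ e, a e ^ 2) / 2) ≤ Real.exp (2 * b2) := by
    refine Real.exp_le_exp.2 ?_
    linarith
  have h6 : 1 ≤ Real.exp (2 * b2) := by
    refine Real.one_le_exp ?_
    have : 0 ≤ ∑ e, a e ^ 2 := Finset.sum_nonneg fun e _ => sq_nonneg _
    linarith
  have h7 : ∫ _z : ι → ℝ, (1 / 2 : ℝ) ∂(gI ι) = 1 / 2 := by simp
  rw [h7]
  linarith

lemma meas_hr (hG : GM μ S M0) (k : ℝ) (A0 : Finset ι) :
    Measurable fun p : (ι → ℝ) × Ω => hr k S A0 p.1 p.2 := by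
  unfold hr
  refine Measurable.const_mul ?_ k
  refine Finset.measurable_fun_sum _ fun e _ => ?_
  exact ((hG.meas e).comp measurable_snd).mul ((measurable_pi_apply e).comp measurable_fst)

/-- the mean over the row of the squared ratio of the partition functions -/
lemma int_ratio (hG : GM μ S M0) (hF : Flip μ S A0 φ) (k : ℝ) {b2 : ℝ}
    (hb : ∀ w, ∑ e ∈ A0, (k * S e w) ^ 2 ≤ b2) (z : ι → ℝ) :
    Integrable (fun z' => (Zm μ k S (glue A0ᶜ z z') / Z0 μ k S A0 z) ^ 2) (gI ι) ∧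
    ∫ z', (Zm μ k S (glue A0ᶜ z z') / Z0 μ k S A0 z) ^ 2 ∂(gI ι) ≤ Real.exp (2 * b2) := by
  have := hG.fin
  have hW := Z0_pos hG k A0 z
  have b0 := bm_ez0 hG k A0 z
  set W := Z0 μ k S A0 z with hWd
  -- integrability on the product
  have hm : Measurable fun p : (ι → ℝ) × Ω =>
      ez0 k S A0 z p.2 * Real.cosh (hr k S A0 p.1 p.2) ^ 2 :=
    (b0.meas.comp measurable_snd).mul ((Real.continuous_cosh.measurable.comp
      (meas_hr hG k A0)).pow_const 2)
  have hnn : ∀ p : (ι → ℝ) × Ω, 0 ≤ ez0 k S A0 z p.2 * Real.cosh (hr k S A0 p.1 p.2) ^ 2 :=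
    fun p => mul_nonneg (ez0_pos z p.2).le (sq_nonneg _)
  have hsw : ∀ w, Integrable (fun z' : ι → ℝ =>
      ez0 k S A0 z w * Real.cosh (hr k S A0 z' w) ^ 2) (gI ι) :=
    fun w => (int_cosh_sq hb w).2.const_mul _
  obtain ⟨C0, hC0, hCb⟩ := b0.bd
  have hprod : Integrable (fun p : Ω × (ι → ℝ) =>
      ez0 k S A0 z p.1 * Real.cosh (hr k S A0 p.2 p.1) ^ 2) (μ.prod (gI ι)) := by
    have hm' : Measurable fun p : Ω × (ι → ℝ) =>
        ez0 k S A0 z p.1 * Real.cosh (hr k S A0 p.2 p.1) ^ 2 := hm.comp measurable_swap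
    rw [integrable_prod_iff hm'.aestronglyMeasurable]
    refine ⟨Filter.Eventually.of_forall hsw, ?_⟩
    refine Integrable.of_bound (C := C0 * Real.exp (2 * b2)) ?_
      (Filter.Eventually.of_forall fun w => ?_)
    · exact (hm'.norm.stronglyMeasurable.integral_prod_right').aestronglyMeasurable
    · rw [Real.norm_eq_abs, abs_of_nonneg (integral_nonneg fun _ => norm_nonneg _)]
      have e : ∀ z' : ι → ℝ, ‖ez0 k S A0 z w * Real.cosh (hr k S A0 z' w) ^ 2‖ =
          ez0 k S A0 z w * Real.cosh (hr k S A0 z' w) ^ 2 := fun z' => by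
        rw [Real.norm_eq_abs, abs_of_nonneg (hnn (z', w))]
      simp only [e]
      rw [integral_const_mul]
      exact mul_le_mul ((le_abs_self _).trans (hCb w)) (int_cosh_sq hb w).1
        (integral_nonneg fun _ => sq_nonneg _) hC0
  have hprod' : Integrable (fun p : (ι → ℝ) × Ω =>
      ez0 k S A0 z p.2 * Real.cosh (hr k S A0 p.1 p.2) ^ 2) ((gI ι).prod μ) := hprod.swap
  -- Jensen for the bulk
  have hJ : ∀ z' : ι → ℝ, (Zm μ k S (glue A0ᶜ z z') / W) ^ 2 ≤
      (∫ w, ez0 k S A0 z w * Real.cosh (hr k S A0 z' w) ^ 2 ∂μ) / W := by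
    intro z'
    have bh := bm_hr hG k A0 z'
    have bc := bm_cosh bh
    have hZ : Zm μ k S (glue A0ᶜ z z') = ∫ w, ez0 k S A0 z w * Real.cosh (hr k S A0 z' w) ∂μ := by
      rw [Zm_eq hG hF]
      simp only [ez0_glue, hr_glue]
    set Z := Zm μ k S (glue A0ᶜ z z') with hZd
    have h1 : 0 ≤ ∫ w, ez0 k S A0 z w * (W * Real.cosh (hr k S A0 z' w) - Z) ^ 2 ∂μ :=
      integral_nonneg fun w => mul_nonneg (ez0_pos z w).le (sq_nonneg _)
    have e2 : ∀ w, ez0 k S A0 z w * (W * Real.cosh (hr k S A0 z' w) - Z) ^ 2 =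
        (W ^ 2 * (ez0 k S A0 z w * Real.cosh (hr k S A0 z' w) ^ 2) -
          (2 * W * Z) * (ez0 k S A0 z w * Real.cosh (hr k S A0 z' w))) +
          Z ^ 2 * ez0 k S A0 z w := by
      intro w
      ring
    simp only [e2] at h1
    have j1 : Integrable (fun w => W ^ 2 * (ez0 k S A0 z w *
        Real.cosh (hr k S A0 z' w) ^ 2)) μ := ((b0.mul (bc.pow 2)).const_mul _).integrable
    have j2 : Integrable (fun w => (2 * W * Z) * (ez0 k S A0 z w *
        Real.cosh (hr k S A0 z' w))) μ := ((b0.mul bc).const_mul _).integrable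
    have j3 : Integrable (fun w => Z ^ 2 * ez0 k S A0 z w) μ := (b0.const_mul _).integrable
    have j12 : Integrable (fun w => W ^ 2 * (ez0 k S A0 z w * Real.cosh (hr k S A0 z' w) ^ 2) -
        (2 * W * Z) * (ez0 k S A0 z w * Real.cosh (hr k S A0 z' w))) μ := j1.sub j2
    rw [integral_add j12 j3, integral_sub j1 j2, integral_const_mul,
      integral_const_mul, integral_const_mul, ← hZ] at h1
    have h2 : ∫ w, ez0 k S A0 z w ∂μ = W := rfl
    rw [h2] at h1
    rw [div_pow, div_le_div_iff₀ (by positivity) hW]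
    nlinarith
  have hri : Integrable (fun z' => (∫ w, ez0 k S A0 z w *
      Real.cosh (hr k S A0 z' w) ^ 2 ∂μ) / W) (gI ι) :=
    (hprod'.integral_prod_left).div_const W
  have hZc : Measurable fun z' => (Zm μ k S (glue A0ᶜ z z') / W) ^ 2 := by
    have h1 : Measurable (Zm μ k S) :=
      (continuous_iff_continuousAt.2 fun u => (hG.fd_Z k u).continuousAt).measurable
    exact ((h1.comp (measurable_glue_right A0ᶜ z)).div_const W).pow_const 2
  have hli : Integrable (fun z' => (Zm μ k S (glue A0ᶜ z z') / W) ^ 2) (gI ι) := by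
    refine hri.mono' hZc.aestronglyMeasurable (Filter.Eventually.of_forall fun z' => ?_)
    rw [Real.norm_eq_abs, abs_of_nonneg (sq_nonneg _)]
    exact hJ z'
  refine ⟨hli, (integral_mono hli hri hJ).trans ?_⟩
  rw [integral_div, div_le_iff₀ hW]
  have hsw2 : ∫ z', ∫ w, ez0 k S A0 z w * Real.cosh (hr k S A0 z' w) ^ 2 ∂μ ∂(gI ι) =
      ∫ w, ∫ z', ez0 k S A0 z w * Real.cosh (hr k S A0 z' w) ^ 2 ∂(gI ι) ∂μ :=
    integral_integral_swap (f := fun z' w => ez0 k S A0 z w * Real.cosh (hr k S A0 z' w) ^ 2)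
      hprod'
  rw [hsw2]
  calc ∫ w, ∫ z', ez0 k S A0 z w * Real.cosh (hr k S A0 z' w) ^ 2 ∂(gI ι) ∂μ ≤
        ∫ w, Real.exp (2 * b2) * ez0 k S A0 z w ∂μ := by
        refine integral_mono hprod'.integral_prod_right (b0.const_mul _).integrable fun w => ?_
        simp only
        rw [integral_const_mul, mul_comm]
        exact mul_le_mul_of_nonneg_right (int_cosh_sq hb w).1 (ez0_pos z w).le
    _ = Real.exp (2 * b2) * W := by rw [integral_const_mul]; rfl

/-! ### the conditional mean -/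

/-- the average of `sech^2` of the field of the row -/
noncomputable def rhoS (μ : Measure Ω) (k : ℝ) (S : ι → Ω → ℝ) (A0 : Finset ι) (u : ι → ℝ) : ℝ :=
  avm μ k S (s2 k S A0 u) u

lemma rhoS_nonneg (hG : GM μ S M0) (k : ℝ) (A0 : Finset ι) (u : ι → ℝ) :
    0 ≤ rhoS μ k S A0 u := hG.av_nonneg k (fun _ => s2_nonneg _) u

lemma rhoS_le_one (hG : GM μ S M0) (k : ℝ) (A0 : Finset ι) (u : ι → ℝ) :
    rhoS μ k S A0 u ≤ 1 := by
  refine (le_abs_self _).trans (hG.abs_av_le k (bm_s2 hG k A0 u).meas (C := 1) (fun w => ?_) u)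
  rw [abs_of_nonneg (s2_nonneg w)]
  exact s2_le_one w

lemma bm_rhoS (hG : GM μ S M0) (k : ℝ) (A0 : Finset ι) : BM (rhoS μ k S A0) := by
  have := hG.fin
  refine ⟨?_, 1, fun u => by
    rw [abs_of_nonneg (rhoS_nonneg hG k A0 u)]
    exact rhoS_le_one hG k A0 u⟩
  unfold rhoS avm
  have hZ : Measurable (Zm μ k S) :=
    (continuous_iff_continuousAt.2 fun u => (hG.fd_Z k u).continuousAt).measurable
  refine Measurable.div ?_ hZ
  have hm : Measurable fun p : (ι → ℝ) × Ω => ezm k S p.1 p.2 * s2 k S A0 p.1 p.2 := by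
    refine Measurable.mul ?_ ?_
    · unfold ezm
      refine Measurable.exp (Measurable.const_mul ?_ k)
      refine Finset.measurable_fun_sum _ fun e _ => ?_
      exact ((hG.meas e).comp measurable_snd).mul ((measurable_pi_apply e).comp measurable_fst)
    · unfold s2
      exact ((Real.continuous_cosh.measurable.comp (meas_hr hG k A0)).inv).pow_const 2
  exact (hm.stronglyMeasurable.integral_prod_right').measurable

/-- the row alone is integrated -/
lemma sech_row (hG : GM μ S M0) (hF : Flip μ S A0 φ) (k : ℝ) {b2 : ℝ}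
    (hb : ∀ w, ∑ e ∈ A0, (k * S e w) ^ 2 ≤ b2) {x : ℝ} (hx : 0 ≤ x) (hx1 : x ≤ 1) (z : ι → ℝ) :
    Real.exp (-(3 * b2)) ≤ cx (fun _ : ι => gaussianReal 0 1) A0ᶜ (Zxm μ k S x)
      (rhoS μ k S A0) z := by
  have hW := Z0_pos hG k A0 z
  obtain ⟨hi, hle⟩ := int_ratio hG hF k hb z
  set W := Z0 μ k S A0 z with hWd
  set Y : (ι → ℝ) → ℝ := fun z' => Zm μ k S (glue A0ᶜ z z') / W with hY
  have hY1 : ∀ z', 1 ≤ Y z' := by
    intro z'
    rw [hY]
    simp only
    rw [le_div_iff₀ hW, one_mul]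
    have := Z0_le hG hF k (glue A0ᶜ z z')
    rwa [Z0_glue] at this
  have hwt := hG.wt k x
  have hwn := hwt.wn_pos A0ᶜ z
  unfold cx
  rw [le_div_iff₀ hwn]
  -- the powers
  have hpow : ∀ z', Zxm μ k S x (glue A0ᶜ z z') = W ^ x * Y z' ^ x := by
    intro z'
    have hZ := hG.Z_pos k (glue A0ᶜ z z')
    unfold Zxm lzm
    rw [mul_comm x, ← Real.rpow_def_of_pos hZ, ← Real.mul_rpow hW.le (by linarith [hY1 z'])]
    congr 1
    rw [hY]
    field_simp
  have hWx : 0 < W ^ x := Real.rpow_pos_of_pos hW x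
  have hi1 : Integrable Y (gI ι) := by
    refine hi.mono' ?_ (Filter.Eventually.of_forall fun z' => ?_)
    · have h1 : Measurable (Zm μ k S) :=
        (continuous_iff_continuousAt.2 fun u => (hG.fd_Z k u).continuousAt).measurable
      exact ((h1.comp (measurable_glue_right A0ᶜ z)).div_const W).aestronglyMeasurable
    · rw [Real.norm_eq_abs, abs_of_nonneg (by linarith [hY1 z'])]
      have := hY1 z'
      have e : (Zm μ k S (glue A0ᶜ z z') / W) ^ 2 = Y z' * Y z' := by rw [hY]; ring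
      rw [e]
      nlinarith
  have hEY : ∫ z', Y z' ∂(gI ι) ≤ Real.exp b2 := by
    have h1 : (∫ z', Y z' ∂(gI ι)) ^ 2 ≤ ∫ z', Y z' ^ 2 ∂(gI ι) := by
      have h2 : 0 ≤ ∫ z', (Y z' - ∫ z', Y z' ∂(gI ι)) ^ 2 ∂(gI ι) :=
        integral_nonneg fun _ => sq_nonneg _
      set m := ∫ z', Y z' ∂(gI ι) with hm
      have e : ∀ z', (Y z' - m) ^ 2 = (Y z' ^ 2 - (2 * m) * Y z') + m ^ 2 := fun z' => by ring
      simp only [e] at h2
      have j1 : Integrable (fun z' => Y z' ^ 2 - (2 * m) * Y z') (gI ι) :=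
        hi.sub (hi1.const_mul _)
      rw [integral_add j1 (integrable_const _), integral_sub hi (hi1.const_mul _),
        integral_const_mul, ← hm] at h2
      have h3 : ∫ _z : ι → ℝ, m ^ 2 ∂(gI ι) = m ^ 2 := by simp
      rw [h3] at h2
      nlinarith
    have h2 : (∫ z', Y z' ∂(gI ι)) ^ 2 ≤ Real.exp b2 ^ 2 := by
      refine h1.trans (hle.trans (le_of_eq ?_))
      rw [← Real.exp_nat_mul]
      norm_num
    exact abs_le_of_sq_le_sq' h2 (Real.exp_pos _).le |>.2
  -- the denominator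
  have hden : wn (fun _ : ι => gaussianReal 0 1) A0ᶜ (Zxm μ k S x) z ≤
      W ^ x * Real.exp b2 := by
    unfold wn
    have h1 : ∫ z', Zxm μ k S x (glue A0ᶜ z z') ∂(gI ι) ≤ ∫ z', W ^ x * Y z' ∂(gI ι) := by
      refine integral_mono (hwt.sec A0ᶜ z) (hi1.const_mul _) fun z' => ?_
      simp only
      rw [hpow]
      refine mul_le_mul_of_nonneg_left ?_ hWx.le
      calc Y z' ^ x ≤ Y z' ^ (1 : ℝ) := Real.rpow_le_rpow_of_exponent_le (hY1 z') hx1
        _ = Y z' := Real.rpow_one _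
    refine h1.trans ?_
    rw [integral_const_mul]
    exact mul_le_mul_of_nonneg_left hEY hWx.le
  -- the numerator
  have hinv : Integrable (fun z' => (Y z' ^ 2)⁻¹) (gI ι) := by
    refine Integrable.of_bound (C := 1) ?_ (Filter.Eventually.of_forall fun z' => ?_)
    · exact (hi.aestronglyMeasurable.aemeasurable.inv).aestronglyMeasurable
    · have h1 : 1 ≤ Y z' ^ 2 := one_le_pow₀ (hY1 z')
      rw [Real.norm_eq_abs, abs_of_pos (by positivity)]
      exact inv_le_one_of_one_le₀ h1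
  have hnum : W ^ x * Real.exp (-(2 * b2)) ≤ ∫ z', Zxm μ k S x (glue A0ᶜ z z') *
      rhoS μ k S A0 (glue A0ᶜ z z') ∂(gI ι) := by
    have h1 : ∫ z', W ^ x * (Y z' ^ 2)⁻¹ ∂(gI ι) ≤ ∫ z', Zxm μ k S x (glue A0ᶜ z z') *
        rhoS μ k S A0 (glue A0ᶜ z z') ∂(gI ι) := by
      refine integral_mono (hinv.const_mul _) (hwt.sec_mul A0ᶜ z (bm_rhoS hG k A0)) fun z' => ?_
      simp only
      rw [hpow, mul_assoc]
      refine mul_le_mul_of_nonneg_left ?_ hWx.le
      have h2 := s2_ge hG hF k (glue A0ᶜ z z')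
      rw [Z0_glue] at h2
      have h3 : 1 ≤ Y z' ^ x := Real.one_le_rpow (hY1 z') hx
      have h4 : (Y z' ^ 2)⁻¹ = (Z0 μ k S A0 z / Zm μ k S (glue A0ᶜ z z')) ^ 2 := by
        rw [hY]
        simp only
        rw [← inv_pow, inv_div]
      rw [h4]
      calc (Z0 μ k S A0 z / Zm μ k S (glue A0ᶜ z z')) ^ 2 ≤ rhoS μ k S A0 (glue A0ᶜ z z') := h2
        _ = 1 * rhoS μ k S A0 (glue A0ᶜ z z') := (one_mul _).symm
        _ ≤ Y z' ^ x * rhoS μ k S A0 (glue A0ᶜ z z') :=
          mul_le_mul_of_nonneg_right h3 (rhoS_nonneg hG k A0 _)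
    refine le_trans ?_ h1
    rw [integral_const_mul]
    refine mul_le_mul_of_nonneg_left ?_ hWx.le
    -- Jensen for the inverse
    obtain ⟨E2, hE2⟩ : ∃ E2, E2 = ∫ z', Y z' ^ 2 ∂(gI ι) := ⟨_, rfl⟩
    have hE1 : 1 ≤ E2 := by
      rw [hE2]
      calc (1 : ℝ) = ∫ _z : ι → ℝ, (1 : ℝ) ∂(gI ι) := by simp
        _ ≤ ∫ z', Y z' ^ 2 ∂(gI ι) :=
          integral_mono (integrable_const _) hi fun z' => one_le_pow₀ (hY1 z')
    have hE3 : E2 ≤ Real.exp (2 * b2) := by rw [hE2]; exact hle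
    have h5 : ∫ z', (2 * E2⁻¹ - E2⁻¹ ^ 2 * Y z' ^ 2) ∂(gI ι) ≤ ∫ z', (Y z' ^ 2)⁻¹ ∂(gI ι) := by
      refine integral_mono ((integrable_const _).sub (hi.const_mul _)) hinv fun z' => ?_
      simp only
      have h6 : 0 < Y z' ^ 2 := by have := hY1 z'; positivity
      have h7 : 0 ≤ (Y z' ^ 2)⁻¹ * (1 - E2⁻¹ * Y z' ^ 2) ^ 2 := by positivity
      have h8 : ∀ y a : ℝ, 0 < y → y⁻¹ * (1 - a * y) ^ 2 = y⁻¹ - (2 * a - a ^ 2 * y) := by
        intro y a hy
        field_simp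
        ring
      rw [h8 _ _ h6] at h7
      linarith
    have h10 : ∫ z', Y z' ^ 2 ∂(gI ι) = E2 := hE2.symm
    have h9 : ∫ z', (2 * E2⁻¹ - E2⁻¹ ^ 2 * Y z' ^ 2) ∂(gI ι) = 2 * E2⁻¹ - E2⁻¹ ^ 2 * E2 := by
      rw [integral_sub (integrable_const _) (hi.const_mul _)]
      have h9a : ∫ _z : ι → ℝ, (2 * E2⁻¹) ∂(gI ι) = 2 * E2⁻¹ := by simp
      have h9b : ∫ z', E2⁻¹ ^ 2 * Y z' ^ 2 ∂(gI ι) = E2⁻¹ ^ 2 * E2 := by
        rw [integral_const_mul]
        exact congrArg _ h10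
      exact congrArg₂ (· - ·) h9a h9b
    have h11 : 2 * E2⁻¹ - E2⁻¹ ^ 2 * E2 = E2⁻¹ := by
      field_simp
      ring
    have h12 : Real.exp (-(2 * b2)) ≤ E2⁻¹ := by
      rw [Real.exp_neg]
      exact inv_anti₀ (by linarith) hE3
    have h13 : E2⁻¹ ≤ ∫ z', (Y z' ^ 2)⁻¹ ∂(gI ι) := by
      rw [h9, h11] at h5
      exact h5
    exact h12.trans h13
  calc Real.exp (-(3 * b2)) * wn (fun _ : ι => gaussianReal 0 1) A0ᶜ (Zxm μ k S x) z ≤
        Real.exp (-(3 * b2)) * (W ^ x * Real.exp b2) :=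
        mul_le_mul_of_nonneg_left hden (Real.exp_pos _).le
    _ = W ^ x * Real.exp (-(2 * b2)) := by
        rw [mul_comm (Real.exp (-(3 * b2))), mul_assoc, ← Real.exp_add]
        congr 2
        ring
    _ ≤ _ := hnum

/-- **The conditional mean of `⟨sech^2 h⟩` is bounded below**, pointwise. -/
theorem sech_low (hG : GM μ S M0) (hF : Flip μ S A0 φ) (k : ℝ) {b2 : ℝ}
    (hb : ∀ w, ∑ e ∈ A0, (k * S e w) ^ 2 ≤ b2) {x : ℝ} (hx : 0 ≤ x) (hx1 : x ≤ 1)
    {K : Finset ι} (hK : K ⊆ A0ᶜ) (z : ι → ℝ) :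
    Real.exp (-(3 * b2)) ≤ cx (fun _ : ι => gaussianReal 0 1) K (Zxm μ k S x)
      (rhoS μ k S A0) z := by
  have hwt := hG.wt k x
  have hB := bm_rhoS hG k A0
  rw [← cx_cx hwt hK hB z]
  have h1 := cx_mono hwt (K := K) (BM.const (Real.exp (-(3 * b2)))) (hwt.bm_cx A0ᶜ hB)
    (fun z => sech_row hG hF k hb hx hx1 z) z
  refine le_trans (le_of_eq ?_) h1
  exact (cx_dep hwt (K := K) (Q := fun _ => Real.exp (-(3 * b2))) (fun _ _ => rfl) z).symm

/-- `1 - m ^ 2` is at least the mean of `sech^2` -/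
lemma rhoS_le (hG : GM μ S M0) (hF : Flip μ S A0 φ) (k : ℝ) {τ : Ω → ℝ} (hτ : Measurable τ)
    (hτ1 : ∀ w, τ w ^ 2 = 1) (hτo : ∀ w, τ (φ w) = -τ w) (u : ι → ℝ) :
    rhoS μ k S A0 u ≤ 1 - avm μ k S τ u ^ 2 := by
  have hbτ : Bm τ := Bm.of (C := 1) hτ fun w => by
    have h := hτ1 w
    have : |τ w| ^ 2 = 1 := by rw [sq_abs, h]
    nlinarith [abs_nonneg (τ w)]
  have h1 := var_pair hG hF k u hbτ (avm μ k S τ u)
  have e1 : (fun w => s2 k S A0 u w * ((τ w - τ (φ w)) / 2) ^ 2) = s2 k S A0 u := by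
    funext w
    rw [hτo]
    have : ((τ w - -τ w) / 2) ^ 2 = 1 := by
      have := hτ1 w
      linear_combination this
    rw [this, mul_one]
  rw [e1] at h1
  refine h1.trans (le_of_eq ?_)
  set m := avm μ k S τ u with hm
  have e2 : (fun w => (τ w - m) ^ 2) = fun w => (1 - (2 * m) * τ w) + m ^ 2 := by
    funext w
    have := hτ1 w
    linear_combination this
  rw [e2, hG.av_add k ((Bm.const 1).sub (hbτ.const_mul _)) (Bm.const _),
    hG.av_sub k (Bm.const 1) (hbτ.const_mul _), hG.av_const, hG.av_const, av_mul, ← hm]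
  ring

/-- **(C)**: the product form. -/
theorem k3_C (hG : GM μ S M0) (hF : Flip μ S A0 φ) (k : ℝ) {τ : Ω → ℝ} (hτ : Measurable τ)
    (hτ1 : ∀ w, τ w ^ 2 = 1) (hτo : ∀ w, τ (φ w) = -τ w) {b2 : ℝ}
    (hb : ∀ w, ∑ e ∈ A0, (k * S e w) ^ 2 ≤ b2) {x : ℝ} (hx : 0 ≤ x) (hx1 : x ≤ 1)
    {K : Finset ι} (hK : K ⊆ A0ᶜ) (z : ι → ℝ) :
    Real.exp (-(6 * b2)) ≤ cx (fun _ : ι => gaussianReal 0 1) K (Zxm μ k S x)
      (fun u => (1 - avm μ k S τ u ^ 2) * rhoS μ k S A0 u) z := by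
  have hwt := hG.wt k x
  have hB := bm_rhoS hG k A0
  have hbτ : Bm τ := Bm.of (C := 1) hτ fun w => by
    have h := hτ1 w
    have : |τ w| ^ 2 = 1 := by rw [sq_abs, h]
    nlinarith [abs_nonneg (τ w)]
  have hB2 : BM fun u => (1 - avm μ k S τ u ^ 2) * rhoS μ k S A0 u := by
    refine BM.mul ?_ hB
    refine (BM.const 1).sub ?_
    have := (hG.bm_avm k hbτ).mul (hG.bm_avm k hbτ)
    simpa only [sq] using this
  have h1 := sech_low hG hF k hb hx hx1 hK z
  have h2 := cx_sq_le hwt (K := K) hB z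
  have hB3 : BM fun z => rhoS μ k S A0 z ^ 2 := by
    have := hB.mul hB
    simpa only [sq] using this
  have h3 := cx_mono hwt (K := K) hB3 hB2 (fun u => by
    rw [sq]
    exact mul_le_mul_of_nonneg_right (rhoS_le hG hF k hτ hτ1 hτo u) (rhoS_nonneg hG k A0 u)) z
  refine le_trans ?_ (h2.trans h3)
  calc Real.exp (-(6 * b2)) = Real.exp (-(3 * b2)) ^ 2 := by
        rw [← Real.exp_nat_mul]
        congr 1
        push_cast
        ring
    _ ≤ _ := pow_le_pow_left₀ (Real.exp_pos _).le h1 2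

end Vale.Agent.P146.H620
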