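import Vale.Agent.P146.H116.K3A
import Vale.Agent.P146.H620.Sech

/-!
(K3), part (C), in the notation of `H116.K3A`: the conditional mean of `(1 - m^2) rhoS` is at least
`exp (-6 b2)`, pointwise.
-/

open MeasureTheory ProbabilityTheory Filter Topology

namespace Vale.Agent.P146.H620.K3C

open Vale.Agent.P157.Lv Vale.Agent.P146.H646 Vale.Agent.P146.H196

set_option linter.unusedSectionVars false

variable {ι : Type} [Fintype ι] [DecidableEq ι] {Ω : Type} [MeasurableSpace Ω]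
  {μ : Measure Ω} {k M0 : ℝ} {S : ι → Ω → ℝ} {R : Finset ι} {τ : Ω → Ω} {σ : Ω → ℝ}

lemma to_flip (hF : H116.Flip μ S R τ σ) : H620.Flip μ S R τ :=
  ⟨hF.mp, hF.inv, hF.on, hF.off⟩

lemma sE_eq (hF : H116.Flip μ S R τ σ) (k : ℝ) (u : ι → ℝ) (w : Ω) :
    H116.sE k S τ u w = s2 k S R u w := by
  have h := to_flip hF
  unfold H116.sE s2
  rw [h.ezm_flip, h.ezm_eq]
  obtain ⟨E0, hE0⟩ : ∃ E0, E0 = Real.exp (k * ∑ e ∈ Rᶜ, S e w * u e) := ⟨_, rfl⟩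
  obtain ⟨y, hy⟩ : ∃ y, y = hr k S R u w := ⟨_, rfl⟩
  rw [← hE0, ← hy, Real.cosh_eq]
  have h1 : 0 < E0 := by rw [hE0]; exact Real.exp_pos _
  have h2 : Real.exp y * Real.exp (-y) = 1 := by
    rw [← Real.exp_add, add_neg_cancel, Real.exp_zero]
  have h3 : 0 < Real.exp y + Real.exp (-y) := by positivity
  have e1 : 4 * (E0 * Real.exp y * (E0 * Real.exp (-y))) = 4 * E0 ^ 2 := by
    linear_combination (4 * E0 ^ 2) * h2
  have e2 : (E0 * Real.exp y + E0 * Real.exp (-y)) ^ 2 =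
      E0 ^ 2 * (Real.exp y + Real.exp (-y)) ^ 2 := by ring
  rw [e1, e2, inv_pow, div_pow]
  field_simp
  norm_num

lemma rhoS_eq (hF : H116.Flip μ S R τ σ) (k : ℝ) (u : ι → ℝ) :
    H116.rhoS μ k S τ u = H620.rhoS μ k S R u := by
  unfold H116.rhoS H620.rhoS
  congr 1
  funext w
  exact sE_eq hF k u w

lemma bm_rhoS' (hG : GM μ S M0) (hF : H116.Flip μ S R τ σ) (k : ℝ) :
    BM (H116.rhoS μ k S τ) := by
  have e : H116.rhoS μ k S τ = H620.rhoS μ k S R := funext fun u => rhoS_eq hF k u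
  rw [e]
  exact bm_rhoS hG k R

/-- the conditional mean of `rhoS` -/
theorem rho_low (hG : GM μ S M0) (hF : H116.Flip μ S R τ σ) (k : ℝ) {b2 : ℝ}
    (hb : ∀ w, ∑ e ∈ R, (k * S e w) ^ 2 ≤ b2) {x : ℝ} (hx : 0 ≤ x) (hx1 : x ≤ 1)
    {K : Finset ι} (hK : K ⊆ Rᶜ) (z : ι → ℝ) :
    Real.exp (-(3 * b2)) ≤ cx (fun _ : ι => gaussianReal 0 1) K (Zxm μ k S x)
      (H116.rhoS μ k S τ) z := by
  have e : H116.rhoS μ k S τ = H620.rhoS μ k S R := funext fun u => rhoS_eq hF k u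
  rw [e]
  exact sech_low hG (to_flip hF) k hb hx hx1 hK z

/-- `rhoS ≤ 1 - m^2` -/
lemma rho_le_var (hG : GM μ S M0) (hF : H116.Flip μ S R τ σ) (k : ℝ) (u : ι → ℝ) :
    H116.rhoS μ k S τ u ≤ 1 - avm μ k S σ u ^ 2 := by
  rw [rhoS_eq hF]
  exact rhoS_le hG (to_flip hF) k hF.meas hF.sq hF.odd u

/-- **(C)** -/
theorem k3_C (hG : GM μ S M0) (hF : H116.Flip μ S R τ σ) (k : ℝ) {b2 : ℝ}
    (hb : ∀ w, ∑ e ∈ R, (k * S e w) ^ 2 ≤ b2) {x : ℝ} (hx : 0 ≤ x) (hx1 : x ≤ 1)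
    {K : Finset ι} (hK : K ⊆ Rᶜ) (z : ι → ℝ) :
    Real.exp (-(6 * b2)) ≤ cx (fun _ : ι => gaussianReal 0 1) K (Zxm μ k S x)
      (fun u => (1 - avm μ k S σ u ^ 2) * H116.rhoS μ k S τ u) z := by
  have e : H116.rhoS μ k S τ = H620.rhoS μ k S R := funext fun u => rhoS_eq hF k u
  rw [e]
  exact H620.k3_C hG (to_flip hF) k hF.meas hF.sq hF.odd hb hx hx1 hK z

end Vale.Agent.P146.H620.K3C
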