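import Vale.Agent.P146.H116.K3A

/-!
(K3), the pointwise inequality at the midpoint (`star`): for the flip of one site,
`p log (⟨e^Y⟩ ⟨e^(-Y)⟩) + |D|^2 ≥ (r^2 / 2) (c1 rhoS (u + D) + c1 rhoS (u - D) - 2 δ)`,
`Y = r σ + k ∑ S_e D_e`.
-/

open MeasureTheory ProbabilityTheory Filter Topology

namespace Vale.Agent.P146.H620.Mid

open Vale.Agent.P157.Lv Vale.Agent.P146.H646 Vale.Agent.P146.H196 Vale.Agent.P146.H116

set_option linter.unusedSectionVars false

variable {ι : Type} [Fintype ι] [DecidableEq ι] {Ω : Type} [MeasurableSpace Ω]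
  {μ : Measure Ω} {k M0 : ℝ} {S : ι → Ω → ℝ} {R : Finset ι} {τ : Ω → Ω} {σ : Ω → ℝ}

section flip

variable (hF : Flip μ S R τ σ)
include hF

lemma int_flip (f : Ω → ℝ) : ∫ w, f (τ w) ∂μ = ∫ w, f w ∂μ := by
  have hinv : Function.LeftInverse τ τ := hF.inv
  let E : Ω ≃ᵐ Ω := ⟨⟨τ, τ, hinv, hinv⟩, hF.mp.measurable, hF.mp.measurable⟩
  have hE : MeasurePreserving E μ μ := hF.mp
  exact hE.integral_comp' (g := f)

lemma bm_flip {f : Ω → ℝ} (hf : Bm f) : Bm fun w => f (τ w) := by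
  obtain ⟨C, hC, hb⟩ := hf.bd
  exact Bm.of (hf.meas.comp hF.mp.measurable) fun w => hb (τ w)

/-- symmetrization -/
lemma int_sym (hG : GM μ S M0) {f : Ω → ℝ} (hf : Bm f) :
    ∫ w, (f w + f (τ w)) ∂μ = 2 * ∫ w, f w ∂μ := by
  have := hG.fin
  rw [integral_add hf.integrable (bm_flip hF hf).integrable, int_flip hF f]
  ring

end flip

lemma cosh_ge (y : ℝ) : 1 + y ^ 2 / 2 ≤ Real.cosh y := by
  have h1 : Real.cosh y = 1 + 2 * Real.sinh (y / 2) ^ 2 := by
    have h2 := Real.cosh_two_mul (y / 2)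
    have h3 := Real.cosh_sq (y / 2)
    have h4 : 2 * (y / 2) = y := by ring
    rw [h4] at h2
    linarith
  have h5 : (y / 2) ^ 2 ≤ Real.sinh (y / 2) ^ 2 := by
    rcases le_total 0 (y / 2) with h | h
    · exact pow_le_pow_left₀ h (Real.self_le_sinh_iff.2 h) 2
    · have h6 := Real.self_le_sinh_iff.2 (neg_nonneg.2 h)
      rw [Real.sinh_neg] at h6
      nlinarith
  rw [h1]
  nlinarith

/-- Cauchy-Schwarz for the square root of a product -/
lemma cs_sqrt {P Q : Ω → ℝ} [IsFiniteMeasure μ] (hP : Bm P) (hQ : Bm Q) (hP0 : ∀ w, 0 ≤ P w)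
    (hQ0 : ∀ w, 0 ≤ Q w) :
    (∫ w, √(P w * Q w) ∂μ) ^ 2 ≤ (∫ w, P w ∂μ) * ∫ w, Q w ∂μ := by
  have h1 : ∀ s t : ℝ, 2 * s * t * ∫ w, √(P w * Q w) ∂μ ≤
      s ^ 2 * (∫ w, P w ∂μ) + t ^ 2 * ∫ w, Q w ∂μ := by
    intro s t
    rw [← integral_const_mul, ← integral_const_mul, ← integral_const_mul,
      ← integral_add (hP.const_mul _).integrable (hQ.const_mul _).integrable]
    have hsq : Bm fun w => √(P w * Q w) := by
      obtain ⟨C, hC, h1⟩ := (hP.mul hQ).bd
      refine Bm.of (C := √C) (hP.meas.mul hQ.meas).sqrt fun w => ?_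
      rw [abs_of_nonneg (Real.sqrt_nonneg _)]
      exact Real.sqrt_le_sqrt ((le_abs_self _).trans (h1 w))
    refine integral_mono (hsq.const_mul _).integrable
      ((hP.const_mul _).add (hQ.const_mul _)).integrable fun w => ?_
    simp only
    rw [Real.sqrt_mul (hP0 w)]
    have e1 := Real.sq_sqrt (hP0 w)
    have e2 := Real.sq_sqrt (hQ0 w)
    nlinarith [sq_nonneg (s * √(P w) - t * √(Q w))]
  set A := ∫ w, P w ∂μ
  set B := ∫ w, Q w ∂μ
  set C := ∫ w, √(P w * Q w) ∂μ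
  have hA : 0 ≤ A := integral_nonneg hP0
  have hB : 0 ≤ B := integral_nonneg hQ0
  have hC : 0 ≤ C := integral_nonneg fun _ => Real.sqrt_nonneg _
  have h2 := h1 (√B) (√A)
  rw [Real.sq_sqrt hA, Real.sq_sqrt hB] at h2
  -- 2 √A √B C ≤ 2 A B
  have h3 : √B * √A * C ≤ A * B := by nlinarith
  rcases eq_or_lt_of_le (mul_nonneg hA hB) with h0 | h0
  · -- `A B = 0`
    have h4 := h1 1 C
    have h5 := h1 C 1
    have h6 : C = 0 := by
      by_contra hne
      have hCp : 0 < C := lt_of_le_of_ne hC (Ne.symm hne)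
      rcases mul_eq_zero.1 h0.symm with hA0 | hB0
      · -- scale the first parameter
        have h7 := h1 ((B + 1) / C) 1
        rw [hA0] at h7
        have h8 : 2 * ((B + 1) / C) * 1 * C = 2 * (B + 1) := by field_simp
        rw [h8] at h7
        nlinarith
      · have h7 := h1 1 ((A + 1) / C)
        rw [hB0] at h7
        have h8 : 2 * 1 * ((A + 1) / C) * C = 2 * (A + 1) := by field_simp
        rw [h8] at h7
        nlinarith
    rw [h6]
    simpa using mul_nonneg hA hB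
  · have hAB : √B * √A = √(A * B) := by
      rw [mul_comm, Real.sqrt_mul hA]
    rw [hAB] at h3
    have h7 : 0 < √(A * B) := Real.sqrt_pos.2 h0
    have h8 : √(A * B) ^ 2 = A * B := Real.sq_sqrt h0.le
    have h9 : C ≤ √(A * B) := by
      have h10 : √(A * B) * C ≤ √(A * B) * √(A * B) := by
        rw [← sq, h8]
        exact h3
      exact le_of_mul_le_mul_left h10 h7
    calc C ^ 2 ≤ √(A * B) ^ 2 := pow_le_pow_left₀ hC h9 2
      _ = A * B := h8

/-- `⟨e^Y⟩ ⟨e^(-Y)⟩` is at least the square of `⟨√(1 + sE d^2)⟩`, `2 d = Y - Y ∘ τ`. -/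
theorem pt_cs (hG : GM μ S M0) (hF : Flip μ S R τ σ) (k : ℝ) (u : ι → ℝ) {Y : Ω → ℝ}
    (hY : Bm Y) :
    avm μ k S (fun w => √(1 + sE k S τ u w * ((Y w - Y (τ w)) / 2) ^ 2)) u ^ 2 ≤
      avm μ k S (fun w => Real.exp (Y w)) u * avm μ k S (fun w => Real.exp (-Y w)) u := by
  have hfin := hG.fin
  have hZ := hG.Z_pos k u
  have ba := hG.bez k u
  have hYn : Bm fun w => -Y w := by simpa using hY.const_mul (-1)
  have b1 : Bm fun w => ezm k S u w * Real.exp (Y w) := ba.mul hY.exp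
  have b2 : Bm fun w => ezm k S u w * Real.exp (-Y w) := ba.mul hYn.exp
  have bd : Bm fun w => ((Y w - Y (τ w)) / 2) ^ 2 := by
    have h := (((hY.sub (bm_flip hF hY)).const_mul (1 / 2)).pow 2)
    convert h using 2 with w
    ring
  have bs : Bm fun w => √(1 + sE k S τ u w * ((Y w - Y (τ w)) / 2) ^ 2) := by
    have h1 : Bm fun w => 1 + sE k S τ u w * ((Y w - Y (τ w)) / 2) ^ 2 :=
      (Bm.const 1).add ((bm_sE hG hF k u).mul bd)
    obtain ⟨C, hC, h2⟩ := h1.bd
    refine Bm.of (C := √C) h1.meas.sqrt fun w => ?_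
    rw [abs_of_nonneg (Real.sqrt_nonneg _)]
    exact Real.sqrt_le_sqrt ((le_abs_self _).trans (h2 w))
  have b3 : Bm fun w => ezm k S u w * √(1 + sE k S τ u w * ((Y w - Y (τ w)) / 2) ^ 2) :=
    ba.mul bs
  have key := cs_sqrt (μ := μ) (P := fun w => ezm k S u w * Real.exp (Y w) +
      ezm k S u (τ w) * Real.exp (Y (τ w)))
    (Q := fun w => ezm k S u w * Real.exp (-Y w) + ezm k S u (τ w) * Real.exp (-Y (τ w)))
    (b1.add (bm_flip hF b1)) (b2.add (bm_flip hF b2))
    (fun w => add_nonneg (mul_nonneg (ezm_pos u w).le (Real.exp_pos _).le)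
      (mul_nonneg (ezm_pos u (τ w)).le (Real.exp_pos _).le))
    (fun w => add_nonneg (mul_nonneg (ezm_pos u w).le (Real.exp_pos _).le)
      (mul_nonneg (ezm_pos u (τ w)).le (Real.exp_pos _).le))
  rw [int_sym hF hG b1, int_sym hF hG b2] at key
  have hlow : 2 * ∫ w, ezm k S u w * √(1 + sE k S τ u w * ((Y w - Y (τ w)) / 2) ^ 2) ∂μ ≤
      ∫ w, √((ezm k S u w * Real.exp (Y w) + ezm k S u (τ w) * Real.exp (Y (τ w))) *
        (ezm k S u w * Real.exp (-Y w) + ezm k S u (τ w) * Real.exp (-Y (τ w)))) ∂μ := by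
    rw [← int_sym hF hG b3]
    refine integral_mono (b3.add (bm_flip hF b3)).integrable ?_ fun w => ?_
    · have hb := (b1.add (bm_flip hF b1)).mul (b2.add (bm_flip hF b2))
      obtain ⟨C, hC, h2⟩ := hb.bd
      refine Bm.integrable (Bm.of (C := √C) hb.meas.sqrt fun w => ?_)
      rw [abs_of_nonneg (Real.sqrt_nonneg _)]
      exact Real.sqrt_le_sqrt ((le_abs_self _).trans (h2 w))
    · simp only
      rw [sE_tau hF, hF.inv]
      have ha := ezm_pos (k := k) (S := S) u w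
      have hb := ezm_pos (k := k) (S := S) u (τ w)
      have hs := sE_pos (k := k) (S := S) (τ := τ) u w
      obtain ⟨a, hae⟩ : ∃ a, a = ezm k S u w := ⟨_, rfl⟩
      obtain ⟨b, hbe⟩ : ∃ b, b = ezm k S u (τ w) := ⟨_, rfl⟩
      obtain ⟨s, hse⟩ : ∃ s, s = sE k S τ u w := ⟨_, rfl⟩
      have hsab : s * (a + b) ^ 2 = 4 * (a * b) := by
        rw [hse, hae, hbe]
        unfold sE
        have : (ezm k S u w + ezm k S u (τ w)) ^ 2 ≠ 0 := by positivity
        field_simp
      rw [← hae, ← hbe, ← hse]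
      rw [← hae] at ha
      rw [← hbe] at hb
      rw [← hse] at hs
      have e1 : ((Y (τ w) - Y w) / 2) ^ 2 = ((Y w - Y (τ w)) / 2) ^ 2 := by ring
      rw [e1, ← add_mul]
      obtain ⟨d, hd⟩ : ∃ d, d = (Y w - Y (τ w)) / 2 := ⟨_, rfl⟩
      rw [← hd]
      have hpos : 0 ≤ 1 + s * d ^ 2 := by positivity
      rw [← Real.sqrt_sq (by positivity : 0 ≤ a + b), ← Real.sqrt_mul (sq_nonneg _)]
      refine Real.sqrt_le_sqrt ?_
      have e2 : (a * Real.exp (Y w) + b * Real.exp (Y (τ w))) *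
          (a * Real.exp (-Y w) + b * Real.exp (-Y (τ w))) =
          a ^ 2 + b ^ 2 + 2 * (a * b) * Real.cosh (2 * d) := by
        have q1 : Real.exp (Y w) * Real.exp (-Y w) = 1 := by
          rw [← Real.exp_add, add_neg_cancel, Real.exp_zero]
        have q2 : Real.exp (Y (τ w)) * Real.exp (-Y (τ w)) = 1 := by
          rw [← Real.exp_add, add_neg_cancel, Real.exp_zero]
        have q3 : Real.exp (Y w) * Real.exp (-Y (τ w)) = Real.exp (2 * d) := by
          rw [← Real.exp_add]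
          congr 1
          rw [hd]
          ring
        have q4 : Real.exp (Y (τ w)) * Real.exp (-Y w) = Real.exp (-(2 * d)) := by
          rw [← Real.exp_add]
          congr 1
          rw [hd]
          ring
        rw [Real.cosh_eq]
        calc (a * Real.exp (Y w) + b * Real.exp (Y (τ w))) *
            (a * Real.exp (-Y w) + b * Real.exp (-Y (τ w))) =
            a ^ 2 * (Real.exp (Y w) * Real.exp (-Y w)) +
              b ^ 2 * (Real.exp (Y (τ w)) * Real.exp (-Y (τ w))) +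
              a * b * (Real.exp (Y w) * Real.exp (-Y (τ w)) +
                Real.exp (Y (τ w)) * Real.exp (-Y w)) := by ring
          _ = _ := by rw [q1, q2, q3, q4]; ring
      rw [e2]
      have h3 : 1 + (2 * d) ^ 2 / 2 ≤ Real.cosh (2 * d) := cosh_ge _
      have h4 : (a + b) ^ 2 * (1 + s * d ^ 2) = (a + b) ^ 2 + 4 * (a * b) * d ^ 2 := by
        rw [mul_add, mul_one, ← hsab]
        ring
      rw [h4]
      have h5 : 0 < a * b := mul_pos ha hb
      nlinarith
  have hnn : 0 ≤ ∫ w, ezm k S u w * √(1 + sE k S τ u w * ((Y w - Y (τ w)) / 2) ^ 2) ∂μ :=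
    integral_nonneg fun w => mul_nonneg (ezm_pos u w).le (Real.sqrt_nonneg _)
  have h6 : (2 * ∫ w, ezm k S u w * √(1 + sE k S τ u w * ((Y w - Y (τ w)) / 2) ^ 2) ∂μ) ^ 2 ≤
      (2 * ∫ w, ezm k S u w * Real.exp (Y w) ∂μ) * (2 * ∫ w, ezm k S u w * Real.exp (-Y w) ∂μ) :=
    (pow_le_pow_left₀ (by positivity) hlow 2).trans key
  unfold avm
  rw [div_pow, div_mul_div_comm, ← sq]
  refine div_le_div_of_nonneg_right ?_ (by positivity)
  nlinarith

/-- the elementary lower bound of the square root -/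
lemma sqrt_ge {y : ℝ} (hy : 0 ≤ y) : 1 + y / 2 - y ^ 2 / 8 ≤ √(1 + y) := by
  rcases le_or_gt (1 + y / 2 - y ^ 2 / 8) 0 with h | h
  · exact h.trans (Real.sqrt_nonneg _)
  · refine Real.le_sqrt_of_sq_le ?_
    have h1 : y ≤ 8 := by nlinarith
    have e : (1 + y / 2 - y ^ 2 / 8) ^ 2 = 1 + y - y ^ 3 / 8 + y ^ 4 / 64 := by ring
    rw [e]
    nlinarith [mul_nonneg (pow_nonneg hy 3) (sub_nonneg.2 h1)]

/-- **(*), the case of a small shift**: the logarithm of the product of the two exponential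
averages. -/
theorem log_ge (hG : GM μ S M0) (hF : Flip μ S R τ σ) (k : ℝ) (u : ι → ℝ) {Y : Ω → ℝ}
    (hY : Bm Y) {r : ℝ} (hr : ∀ w, r ^ 2 / 4 ≤ ((Y w - Y (τ w)) / 2) ^ 2) :
    r ^ 2 / 4 * rhoS μ k S τ u - r ^ 4 / 32 ≤
      Real.log (avm μ k S (fun w => Real.exp (Y w)) u *
        avm μ k S (fun w => Real.exp (-Y w)) u) := by
  have h1 := pt_cs hG hF k u hY
  have bE := bm_sE hG hF k u
  have bd : Bm fun w => ((Y w - Y (τ w)) / 2) ^ 2 := by
    have h := (((hY.sub (bm_flip hF hY)).const_mul (1 / 2)).pow 2)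
    convert h using 2 with w
    ring
  have bs : Bm fun w => √(1 + sE k S τ u w * ((Y w - Y (τ w)) / 2) ^ 2) := by
    have h1 : Bm fun w => 1 + sE k S τ u w * ((Y w - Y (τ w)) / 2) ^ 2 :=
      (Bm.const 1).add (bE.mul bd)
    obtain ⟨C, hC, h2⟩ := h1.bd
    refine Bm.of (C := √C) h1.meas.sqrt fun w => ?_
    rw [abs_of_nonneg (Real.sqrt_nonneg _)]
    exact Real.sqrt_le_sqrt ((le_abs_self _).trans (h2 w))
  obtain ⟨A, hA⟩ : ∃ A, A = avm μ k S
    (fun w => √(1 + sE k S τ u w * ((Y w - Y (τ w)) / 2) ^ 2)) u := ⟨_, rfl⟩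
  rw [← hA] at h1
  have hA1 : 1 ≤ A := by
    have h2 := hG.av_mono k (Bm.const 1) bs (fun w => by
      rw [Real.one_le_sqrt]
      have := sE_pos (k := k) (S := S) (τ := τ) u w
      have : 0 ≤ sE k S τ u w * ((Y w - Y (τ w)) / 2) ^ 2 := by positivity
      linarith) u
    rwa [hG.av_one, ← hA] at h2
  obtain ⟨ρ, hρ⟩ : ∃ ρ, ρ = rhoS μ k S τ u := ⟨_, rfl⟩
  have hρ0 : 0 ≤ ρ := by rw [hρ]; exact rhoS_nonneg hG u
  have hρ1 : ρ ≤ 1 := by rw [hρ]; exact rhoS_le hG hF u
  have hA2 : 1 + r ^ 2 / 8 * ρ - r ^ 4 / 128 ≤ A := by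
    have h2 := hG.av_mono k (h := fun w => (1 - r ^ 4 / 128) + r ^ 2 / 8 * sE k S τ u w) (g :=
      fun w => √(1 + sE k S τ u w * ((Y w - Y (τ w)) / 2) ^ 2))
      ((Bm.const _).add (bE.const_mul _)) bs (fun w => ?_) u
    · rw [hG.av_add k (Bm.const _) (bE.const_mul _), hG.av_const, av_mul, ← hA] at h2
      have h3 : avm μ k S (sE k S τ u) u = ρ := hρ.symm
      have h4 : avm μ k S (fun w => sE k S τ u w) u = ρ := h3
      rw [h4] at h2
      linarith
    · have hs := sE_pos (k := k) (S := S) (τ := τ) u w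
      have hs1 := sE_le (k := k) (S := S) (τ := τ) u w
      obtain ⟨s, hse⟩ : ∃ s, s = sE k S τ u w := ⟨_, rfl⟩
      rw [← hse] at hs hs1 ⊢
      have h5 : √(1 + s * (r ^ 2 / 4)) ≤ √(1 + s * ((Y w - Y (τ w)) / 2) ^ 2) := by
        refine Real.sqrt_le_sqrt ?_
        have := mul_le_mul_of_nonneg_left (hr w) hs.le
        linarith
      have h6 := sqrt_ge (y := s * (r ^ 2 / 4)) (by positivity)
      refine le_trans ?_ (h6.trans h5)
      have h7 : (s * (r ^ 2 / 4)) ^ 2 / 8 ≤ r ^ 4 / 128 := by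
        have h8 : s ^ 2 ≤ 1 := pow_le_one₀ hs.le hs1
        have h9 : 0 ≤ r ^ 4 := by positivity
        nlinarith
      nlinarith
  have hApos : 0 < A := by linarith
  have h2 : Real.log (A ^ 2) ≤ Real.log (avm μ k S (fun w => Real.exp (Y w)) u *
      avm μ k S (fun w => Real.exp (-Y w)) u) := Real.log_le_log (by positivity) h1
  refine le_trans ?_ h2
  rw [Real.log_pow, ← hρ]
  push_cast
  obtain ⟨t, ht⟩ : ∃ t, t = r ^ 2 / 8 * ρ - r ^ 4 / 128 := ⟨_, rfl⟩
  have hlog0 : 0 ≤ Real.log A := Real.log_nonneg hA1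
  have hr4 : r ^ 4 = (r ^ 2) ^ 2 := by ring
  rcases le_or_gt t 0 with h0 | h0
  · have : 0 ≤ r ^ 4 := by positivity
    linarith
  · -- `log (1 + t) ≥ t - t ^ 2 / 2`
    have h3 : Real.log (1 + t) ≤ Real.log A := Real.log_le_log (by linarith) (by linarith)
    have h4 : t - t ^ 2 / 2 ≤ Real.log (1 + t) := by
      have h5 := Real.le_log_one_add_of_nonneg h0.le
      refine le_trans ?_ h5
      rw [le_div_iff₀ (by linarith)]
      nlinarith [pow_pos h0 3]
    have h5 : t ≤ r ^ 2 / 8 := by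
      have h6 : r ^ 2 / 8 * ρ ≤ r ^ 2 / 8 * 1 := mul_le_mul_of_nonneg_left hρ1 (by positivity)
      have : 0 ≤ r ^ 4 := by positivity
      linarith
    have h6 : t ^ 2 ≤ (r ^ 2 / 8) ^ 2 := pow_le_pow_left₀ h0.le h5 2
    nlinarith

/-! ### the average of `sech^2` under a shift -/

lemma ezm_add (k : ℝ) (S : ι → Ω → ℝ) (u D : ι → ℝ) (w : Ω) :
    ezm k S (u + D) w = ezm k S u w * Real.exp (k * ∑ e, S e w * D e) := by
  unfold ezm
  rw [← Real.exp_add, ← mul_add, ← Finset.sum_add_distrib]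
  congr 2
  refine Finset.sum_congr rfl fun e _ => ?_
  simp only [Pi.add_apply]
  ring

/-- one direction of the comparison -/
lemma rho_up (hG : GM μ S M0) (hF : Flip μ S R τ σ) (k : ℝ) (u D : ι → ℝ) :
    rhoS μ k S τ (u + D) ≤ Real.exp (6 * (Km ι k M0 * ‖D‖)) * rhoS μ k S τ u := by
  have hfin := hG.fin
  obtain ⟨M, hM⟩ : ∃ M, M = Km ι k M0 * ‖D‖ := ⟨_, rfl⟩
  rw [← hM]
  have hb : ∀ w, |k * ∑ e, S e w * D e| ≤ M := fun w => by
    rw [hM]
    exact hG.abs_E k D w
  have hup : ∀ w, ezm k S (u + D) w ≤ Real.exp M * ezm k S u w := by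
    intro w
    rw [ezm_add, mul_comm]
    exact mul_le_mul_of_nonneg_right (Real.exp_le_exp.2 (abs_le.1 (hb w)).2) (ezm_pos u w).le
  have hlo : ∀ w, Real.exp (-M) * ezm k S u w ≤ ezm k S (u + D) w := by
    intro w
    rw [ezm_add, mul_comm]
    exact mul_le_mul_of_nonneg_left (Real.exp_le_exp.2 (abs_le.1 (hb w)).1) (ezm_pos u w).le
  have hsE : ∀ w, sE k S τ (u + D) w ≤ Real.exp (4 * M) * sE k S τ u w := by
    intro w
    have a0 := ezm_pos (k := k) (S := S) u w
    have b0 := ezm_pos (k := k) (S := S) u (τ w)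
    have a1 := ezm_pos (k := k) (S := S) (u + D) w
    have b1 := ezm_pos (k := k) (S := S) (u + D) (τ w)
    unfold sE
    rw [mul_div_assoc', div_le_div_iff₀ (by positivity) (by positivity)]
    have h1 := mul_le_mul (hup w) (hup (τ w)) b1.le (by positivity)
    have h2 : Real.exp (-M) * (ezm k S u w + ezm k S u (τ w)) ≤
        ezm k S (u + D) w + ezm k S (u + D) (τ w) := by
      rw [mul_add]
      exact add_le_add (hlo w) (hlo (τ w))
    have h3 := pow_le_pow_left₀ (by positivity) h2 2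
    have e1 : Real.exp (4 * M) = Real.exp M ^ 4 := by
      rw [← Real.exp_nat_mul]
      norm_num
    have e2 : Real.exp M * Real.exp (-M) = 1 := by
      rw [← Real.exp_add, add_neg_cancel, Real.exp_zero]
    have hE := Real.exp_pos M
    calc 4 * (ezm k S (u + D) w * ezm k S (u + D) (τ w)) *
          (ezm k S u w + ezm k S u (τ w)) ^ 2 ≤
        4 * ((Real.exp M * ezm k S u w) * (Real.exp M * ezm k S u (τ w))) *
          (ezm k S u w + ezm k S u (τ w)) ^ 2 := by
          refine mul_le_mul_of_nonneg_right ?_ (sq_nonneg _)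
          linarith
      _ = Real.exp (4 * M) * (4 * (ezm k S u w * ezm k S u (τ w))) *
          (Real.exp (-M) * (ezm k S u w + ezm k S u (τ w))) ^ 2 := by
          rw [e1]
          have e3 : Real.exp M ^ 2 * Real.exp (-M) ^ 2 = 1 := by
            rw [← mul_pow, e2, one_pow]
          linear_combination (-(4 * Real.exp M ^ 2 * (ezm k S u w * ezm k S u (τ w)) *
            (ezm k S u w + ezm k S u (τ w)) ^ 2)) * e3
      _ ≤ Real.exp (4 * M) * (4 * (ezm k S u w * ezm k S u (τ w))) *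
          (ezm k S (u + D) w + ezm k S (u + D) (τ w)) ^ 2 :=
          mul_le_mul_of_nonneg_left h3 (by positivity)
  unfold rhoS avm
  have hZ := hG.Z_pos k u
  have hZ' := hG.Z_pos k (u + D)
  rw [mul_div_assoc', div_le_div_iff₀ hZ' hZ]
  have n1 : ∫ w, ezm k S (u + D) w * sE k S τ (u + D) w ∂μ ≤
      Real.exp (5 * M) * ∫ w, ezm k S u w * sE k S τ u w ∂μ := by
    rw [← integral_const_mul]
    refine integral_mono (hG.int k (bm_sE hG hF k (u + D)) (u + D))
      ((hG.int k (bm_sE hG hF k u) u).const_mul _) fun w => ?_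
    simp only
    calc ezm k S (u + D) w * sE k S τ (u + D) w ≤
          (Real.exp M * ezm k S u w) * (Real.exp (4 * M) * sE k S τ u w) :=
          mul_le_mul (hup w) (hsE w) (sE_pos _ w).le
            (mul_nonneg (Real.exp_pos _).le (ezm_pos u w).le)
      _ = Real.exp (5 * M) * (ezm k S u w * sE k S τ u w) := by
          have : Real.exp (5 * M) = Real.exp M * Real.exp (4 * M) := by
            rw [← Real.exp_add]
            congr 1
            ring
          rw [this]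
          ring
  have n2 : Zm μ k S u ≤ Real.exp M * Zm μ k S (u + D) := by
    unfold Zm
    rw [← integral_const_mul]
    refine integral_mono (hG.bez k u).integrable ((hG.bez k (u + D)).const_mul _).integrable
      fun w => ?_
    simp only
    have h1 := mul_le_mul_of_nonneg_left (hlo w) (Real.exp_pos M).le
    rwa [← mul_assoc, ← Real.exp_add, add_neg_cancel, Real.exp_zero, one_mul] at h1
  have hn0 : 0 ≤ ∫ w, ezm k S u w * sE k S τ u w ∂μ :=
    integral_nonneg fun w => mul_nonneg (ezm_pos u w).le (sE_pos u w).le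
  calc (∫ w, ezm k S (u + D) w * sE k S τ (u + D) w ∂μ) * Zm μ k S u ≤
        (Real.exp (5 * M) * ∫ w, ezm k S u w * sE k S τ u w ∂μ) *
          (Real.exp M * Zm μ k S (u + D)) :=
        mul_le_mul n1 n2 hZ.le (mul_nonneg (Real.exp_pos _).le hn0)
    _ = Real.exp (6 * M) * (∫ w, ezm k S u w * sE k S τ u w ∂μ) * Zm μ k S (u + D) := by
        have : Real.exp (6 * M) = Real.exp (5 * M) * Real.exp M := by
          rw [← Real.exp_add]
          congr 1
          ring
        rw [this]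
        ring

/-- **the average of `sech^2` moves little under a shift** -/
theorem rho_lip (hG : GM μ S M0) (hF : Flip μ S R τ σ) (k : ℝ) (u D : ι → ℝ) :
    |rhoS μ k S τ (u + D) - rhoS μ k S τ u| ≤ Real.exp (6 * (Km ι k M0 * ‖D‖)) - 1 := by
  have h1 := rho_up hG hF k u D
  have h2 := rho_up hG hF k (u + D) (-D)
  rw [add_neg_cancel_right, norm_neg] at h2
  have a1 := rhoS_le hG hF (k := k) u
  have a2 := rhoS_le hG hF (k := k) (u + D)
  have a3 := rhoS_nonneg hG (k := k) (τ := τ) u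
  have a4 := rhoS_nonneg hG (k := k) (τ := τ) (u + D)
  have hE : 1 ≤ Real.exp (6 * (Km ι k M0 * ‖D‖)) := by
    refine Real.one_le_exp ?_
    have := hG.Km_nonneg (ι := ι) k
    positivity
  rw [abs_le]
  constructor <;> nlinarith

/-- the logarithm of the product is nonnegative -/
lemma log_nn (hG : GM μ S M0) (k : ℝ) (u : ι → ℝ) {Y : Ω → ℝ} (hY : Bm Y) :
    0 ≤ Real.log (avm μ k S (fun w => Real.exp (Y w)) u *
      avm μ k S (fun w => Real.exp (-Y w)) u) := by
  have hYn : Bm fun w => -Y w := by simpa using hY.const_mul (-1)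
  obtain ⟨m, hm⟩ : ∃ m, m = avm μ k S Y u := ⟨_, rfl⟩
  have h1 : Real.exp m ≤ avm μ k S (fun w => Real.exp (Y w)) u := by
    have h2 := hG.av_mono k (h := fun w => Real.exp m * (1 - m) + Real.exp m * Y w)
      (g := fun w => Real.exp (Y w)) ((Bm.const _).add (hY.const_mul _)) hY.exp (fun w => by
        have h3 := Real.add_one_le_exp (Y w - m)
        have h4 : Real.exp (Y w) = Real.exp m * Real.exp (Y w - m) := by
          rw [← Real.exp_add]
          congr 1
          ring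
        rw [h4]
        have := mul_le_mul_of_nonneg_left h3 (Real.exp_pos m).le
        linarith) u
    rw [hG.av_add k (Bm.const _) (hY.const_mul _), hG.av_const, av_mul, ← hm] at h2
    linarith
  have h2 : Real.exp (-m) ≤ avm μ k S (fun w => Real.exp (-Y w)) u := by
    have h2 := hG.av_mono k (h := fun w => Real.exp (-m) * (1 + m) + (-Real.exp (-m)) * Y w)
      (g := fun w => Real.exp (-Y w)) ((Bm.const _).add (hY.const_mul _)) hYn.exp (fun w => by
        have h3 := Real.add_one_le_exp (-Y w + m)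
        have h4 : Real.exp (-Y w) = Real.exp (-m) * Real.exp (-Y w + m) := by
          rw [← Real.exp_add]
          congr 1
          ring
        rw [h4]
        have := mul_le_mul_of_nonneg_left h3 (Real.exp_pos (-m)).le
        linarith) u
    rw [hG.av_add k (Bm.const _) (hY.const_mul _), hG.av_const, av_mul, ← hm] at h2
    linarith
  refine Real.log_nonneg ?_
  have h3 := mul_le_mul h1 h2 (Real.exp_pos _).le ((Real.exp_pos _).le.trans h1)
  rwa [← Real.exp_add, add_neg_cancel, Real.exp_zero] at h3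

lemma norm_sq_le (D : ι → ℝ) : ‖D‖ ^ 2 ≤ ∑ e, D e ^ 2 := by
  have h1 : ‖D‖ ≤ √(∑ e, D e ^ 2) := by
    refine (pi_norm_le_iff_of_nonneg (Real.sqrt_nonneg _)).2 fun e => ?_
    rw [Real.norm_eq_abs, ← Real.sqrt_sq_eq_abs]
    exact Real.sqrt_le_sqrt (Finset.single_le_sum (f := fun e => D e ^ 2)
      (fun e _ => sq_nonneg _) (Finset.mem_univ e))
  have h2 := pow_le_pow_left₀ (norm_nonneg D) h1 2
  rwa [Real.sq_sqrt (Finset.sum_nonneg fun e _ => sq_nonneg _)] at h2

/-- **(*)**, for all `u`, all shifts `D` and all small `r`. -/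
theorem star (hG : GM μ S M0) (hF : Flip μ S R τ σ) (k : ℝ) {b2 : ℝ} (hb0 : 0 < b2)
    (hb : ∀ w, ∑ e ∈ R, (k * S e w) ^ 2 ≤ b2) {del : ℝ} (hdel : 0 < del) :
    ∃ r0 : ℝ, 0 < r0 ∧ ∀ r : ℝ, |r| ≤ r0 → ∀ (u D : ι → ℝ) (p : ℝ), 1 ≤ p →
      r ^ 2 / 2 * (min (1 / 4) (1 / (4 * b2)) * rhoS μ k S τ (u + D) +
        min (1 / 4) (1 / (4 * b2)) * rhoS μ k S τ (u - D) - 2 * del) ≤
      p * Real.log (avm μ k S (fun w => Real.exp (r * σ w + k * ∑ e, S e w * D e)) u *
        avm μ k S (fun w => Real.exp (-(r * σ w + k * ∑ e, S e w * D e))) u) +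
        ∑ e, D e ^ 2 := by
  obtain ⟨L, hL⟩ : ∃ L, L = Km ι k M0 / (2 * √b2) := ⟨_, rfl⟩
  have hsb : 0 < √b2 := Real.sqrt_pos.2 hb0
  have hL0 : 0 ≤ L := by
    have := hG.Km_nonneg (ι := ι) k
    rw [hL]
    positivity
  refine ⟨min 1 (min (1 / (6 * (L + 1))) (del / (3 * L + 1))), by positivity, ?_⟩
  intro r hr u D p hp
  have hr1 : |r| ≤ 1 := hr.trans (min_le_left _ _)
  have hr2 : |r| ≤ 1 / (6 * (L + 1)) := hr.trans ((min_le_right _ _).trans (min_le_left _ _))
  have hr3 : |r| ≤ del / (3 * L + 1) := hr.trans ((min_le_right _ _).trans (min_le_right _ _))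
  obtain ⟨c1, hc1⟩ : ∃ c1, c1 = min (1 / 4) (1 / (4 * b2)) := ⟨_, rfl⟩
  rw [← hc1]
  have hc10 : 0 < c1 := by rw [hc1]; positivity
  have hc14 : c1 ≤ 1 / 4 := by rw [hc1]; exact min_le_left _ _
  have hc1b : c1 ≤ 1 / (4 * b2) := by rw [hc1]; exact min_le_right _ _
  have bY : Bm fun w => r * σ w + k * ∑ e, S e w * D e := (hF.bm.const_mul r).add (hG.bE k D)
  have hlog := log_nn hG k u bY
  obtain ⟨Lg, hLg⟩ : ∃ Lg, Lg = Real.log (avm μ k S (fun w => Real.exp (r * σ w +
    k * ∑ e, S e w * D e)) u * avm μ k S (fun w => Real.exp (-(r * σ w +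
      k * ∑ e, S e w * D e))) u) := ⟨_, rfl⟩
  rw [← hLg] at hlog ⊢
  have hpl : Lg ≤ p * Lg := le_mul_of_one_le_left hlog hp
  have ρp0 := rhoS_nonneg hG (k := k) (τ := τ) (u + D)
  have ρp1 := rhoS_le hG hF (k := k) (u + D)
  have ρm0 := rhoS_nonneg hG (k := k) (τ := τ) (u - D)
  have ρm1 := rhoS_le hG hF (k := k) (u - D)
  have hD0 : 0 ≤ ∑ e, D e ^ 2 := Finset.sum_nonneg fun e _ => sq_nonneg _
  by_cases hD : ∑ e, D e ^ 2 ≤ r ^ 2 / (4 * b2)
  · -- a small shift
    have hpair : ∀ w, r ^ 2 / 4 ≤ (((r * σ w + k * ∑ e, S e w * D e) -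
        (r * σ (τ w) + k * ∑ e, S e (τ w) * D e)) / 2) ^ 2 := by
      intro w
      have e1 : ((r * σ w + k * ∑ e, S e w * D e) -
          (r * σ (τ w) + k * ∑ e, S e (τ w) * D e)) / 2 =
          r * σ w + ∑ e ∈ R, (k * S e w) * D e := by
        rw [hF.odd, ← Finset.sum_add_sum_compl R (fun e => S e w * D e),
          ← Finset.sum_add_sum_compl R (fun e => S e (τ w) * D e)]
        have e2 : ∑ e ∈ R, S e (τ w) * D e = -∑ e ∈ R, S e w * D e := by
          rw [← Finset.sum_neg_distrib]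
          refine Finset.sum_congr rfl fun e he => ?_
          rw [hF.on e he]
          ring
        have e3 : ∑ e ∈ Rᶜ, S e (τ w) * D e = ∑ e ∈ Rᶜ, S e w * D e := by
          refine Finset.sum_congr rfl fun e he => ?_
          rw [hF.off e (Finset.mem_compl.1 he)]
        have e4 : ∑ e ∈ R, (k * S e w) * D e = k * ∑ e ∈ R, S e w * D e := by
          rw [Finset.mul_sum]
          exact Finset.sum_congr rfl fun e _ => by ring
        rw [e2, e3, e4]
        ring
      rw [e1]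
      obtain ⟨y, hy⟩ : ∃ y, y = ∑ e ∈ R, (k * S e w) * D e := ⟨_, rfl⟩
      rw [← hy]
      have hy2 : y ^ 2 ≤ r ^ 2 / 4 := by
        rw [hy]
        refine (Finset.sum_mul_sq_le_sq_mul_sq R _ _).trans ?_
        have h3 : ∑ e ∈ R, D e ^ 2 ≤ r ^ 2 / (4 * b2) :=
          (Finset.sum_le_univ_sum_of_nonneg fun e => sq_nonneg (D e)).trans hD
        calc (∑ e ∈ R, (k * S e w) ^ 2) * ∑ e ∈ R, D e ^ 2 ≤ b2 * (r ^ 2 / (4 * b2)) :=
              mul_le_mul (hb w) h3 (Finset.sum_nonneg fun e _ => sq_nonneg _) hb0.le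
          _ = r ^ 2 / 4 := by field_simp
      have hσ := hF.sq w
      have hy3 : |y| ≤ |r| / 2 := by
        have h4 : |y| ^ 2 ≤ (|r| / 2) ^ 2 := by
          rw [sq_abs, div_pow, sq_abs]
          linarith
        exact (abs_le_of_sq_le_sq' h4 (by positivity)).2
      have h5 : |r * σ w * y| ≤ r ^ 2 / 2 := by
        rw [abs_mul, abs_mul, hF.abs w, mul_one]
        calc |r| * |y| ≤ |r| * (|r| / 2) := mul_le_mul_of_nonneg_left hy3 (abs_nonneg _)
          _ = r ^ 2 / 2 := by rw [← sq_abs r]; ring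
      have h6 := (abs_le.1 h5).1
      -- `(r σ + y)^2 = r^2 + 2 r σ y + y^2`; write `y = t r` in absolute value
      have h7 : (r * σ w + y) ^ 2 = r ^ 2 + 2 * (r * σ w * y) + y ^ 2 := by
        have : (r * σ w + y) ^ 2 = r ^ 2 * σ w ^ 2 + 2 * (r * σ w * y) + y ^ 2 := by ring
        rw [this, hσ, mul_one]
      have h8 : |r| * |y| ≤ |r| * |y| := le_rfl
      have h9 : -(|r| * |y|) ≤ r * σ w * y := by
        have h10 : |r * σ w * y| = |r| * |y| := by
          rw [abs_mul, abs_mul, hF.abs w, mul_one]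
        rw [← h10]
        exact neg_abs_le _
      rw [h7, ← sq_abs r, ← sq_abs y]
      nlinarith [abs_nonneg r, abs_nonneg y]
    have h1 := log_ge hG hF k u bY hpair
    rw [← hLg] at h1
    -- the shift of the average
    have hnD : ‖D‖ ≤ |r| / (2 * √b2) := by
      have h2 := (norm_sq_le D).trans hD
      have h3 : ‖D‖ ^ 2 ≤ (|r| / (2 * √b2)) ^ 2 := by
        refine h2.trans (le_of_eq ?_)
        rw [div_pow, mul_pow, Real.sq_sqrt hb0.le, sq_abs]
        norm_num
      exact abs_le_of_sq_le_sq' h3 (by positivity) |>.2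
    have hM : Km ι k M0 * ‖D‖ ≤ L * |r| := by
      have := mul_le_mul_of_nonneg_left hnD (hG.Km_nonneg (ι := ι) k)
      refine this.trans (le_of_eq ?_)
      rw [hL]
      ring
    have hM0 : 0 ≤ Km ι k M0 * ‖D‖ := mul_nonneg (hG.Km_nonneg k) (norm_nonneg _)
    have h6L : 6 * (L * |r|) ≤ 1 := by
      have h2 : |r| * (6 * (L + 1)) ≤ 1 := by
        rwa [le_div_iff₀ (by positivity)] at hr2
      nlinarith [abs_nonneg r]
    have hexp : Real.exp (6 * (Km ι k M0 * ‖D‖)) - 1 ≤ 12 * (L * |r|) := by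
      have h2 := Real.abs_exp_sub_one_le (x := 6 * (Km ι k M0 * ‖D‖)) (by
        rw [abs_of_nonneg (by positivity)]
        linarith)
      rw [abs_of_nonneg (by positivity : 0 ≤ 6 * (Km ι k M0 * ‖D‖))] at h2
      have h3 := (abs_le.1 h2).2
      linarith
    have l1 := (abs_le.1 (rho_lip hG hF k u D)).2
    have l2 : rhoS μ k S τ (u - D) - rhoS μ k S τ u ≤ Real.exp (6 * (Km ι k M0 * ‖D‖)) - 1 := by
      have h2 := (abs_le.1 (rho_lip hG hF k u (-D))).2
      rwa [norm_neg, ← sub_eq_add_neg] at h2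
    have h3L : |r| * (3 * L + 1) ≤ del := by
      rwa [le_div_iff₀ (by positivity)] at hr3
    have hr4 : r ^ 4 ≤ r ^ 2 * |r| := by
      rw [← sq_abs r, show r ^ 4 = |r| ^ 4 by rw [← abs_pow]; exact (abs_of_nonneg (by positivity)).symm]
      have : 0 ≤ |r| ^ 3 := by positivity
      nlinarith [abs_nonneg r]
    obtain ⟨ρ, hρ⟩ : ∃ ρ, ρ = rhoS μ k S τ u := ⟨_, rfl⟩
    rw [← hρ] at l1 l2 h1
    have k1 : c1 * rhoS μ k S τ (u + D) ≤ 1 / 4 * (ρ + 12 * (L * |r|)) :=
      (mul_le_mul_of_nonneg_right hc14 ρp0).trans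
        (mul_le_mul_of_nonneg_left (by linarith) (by norm_num))
    have k2 : c1 * rhoS μ k S τ (u - D) ≤ 1 / 4 * (ρ + 12 * (L * |r|)) :=
      (mul_le_mul_of_nonneg_right hc14 ρm0).trans
        (mul_le_mul_of_nonneg_left (by linarith) (by norm_num))
    have hr20 : 0 ≤ r ^ 2 := sq_nonneg r
    have k3 : r ^ 2 / 2 * (c1 * rhoS μ k S τ (u + D) + c1 * rhoS μ k S τ (u - D) - 2 * del) ≤
        r ^ 2 / 2 * (1 / 4 * (ρ + 12 * (L * |r|)) + 1 / 4 * (ρ + 12 * (L * |r|)) - 2 * del) :=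
      mul_le_mul_of_nonneg_left (by linarith) (by positivity)
    have k4 : r ^ 2 * (|r| * (3 * L + 1)) ≤ r ^ 2 * del := mul_le_mul_of_nonneg_left h3L hr20
    nlinarith
  · -- a large shift
    push Not at hD
    have h1 : r ^ 2 / 2 * (c1 * rhoS μ k S τ (u + D) + c1 * rhoS μ k S τ (u - D) - 2 * del) ≤
        r ^ 2 / 2 * (2 * (1 / (4 * b2))) := by
      refine mul_le_mul_of_nonneg_left ?_ (by positivity)
      have h2 : c1 * rhoS μ k S τ (u + D) ≤ 1 / (4 * b2) * 1 :=
        mul_le_mul hc1b ρp1 ρp0 (by positivity)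
      have h3 : c1 * rhoS μ k S τ (u - D) ≤ 1 / (4 * b2) * 1 :=
        mul_le_mul hc1b ρm1 ρm0 (by positivity)
      linarith
    have h2 : r ^ 2 / 2 * (2 * (1 / (4 * b2))) = r ^ 2 / (4 * b2) := by ring
    have h3 : 0 ≤ p * Lg := mul_nonneg (by linarith) hlog
    linarith

end Vale.Agent.P146.H620.Mid
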