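import Vale.Agent.P146.H620.RowLow
import Vale.Agent.P146.H470.LowC
import Vale.Agent.P146.H516.Ap2

/-!
# P146, K-LOWER: the size of the row equation, eventually

* `row_low`: the proposition `H470.RowLow`;
* `klow`: the lower bound of the relative entropy on the window.
-/

open MeasureTheory ProbabilityTheory Filter Topology Set

namespace Vale.Agent.P146.H620.Low

open Vale.Agent.P146.H418 Vale.Agent.P146.H470 Vale.Agent.P146.H529 Vale.Agent.P146.H317

/-- **The size of the row equation at the typical points.** -/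
theorem row_low {a0 b₁ q A b : ℝ} (hq : 0 < q) (hb : 0 < b) (hA : 1 ≤ A) (ha0 : a0 ≤ 1 / 6)
    (hb₁ : 100 * q < b₁) : RowLow a0 b₁ q A b := by
  unfold RowLow
  filter_upwards [env_ev (a0 := a0) (b₁ := b₁) (d := 24 * q) (Kc b) hq hA,
    H516.mom_ev1 (b := b) (e := 999 * q) (s0 := q / 2) (s1 := q) hb (by linarith) (by linarith)
      (by linarith), tail_ap (D := 2) (cl := q) hq hb] with n g1 g2 g3
  intro y V al s lam η a h w T hT1 hT2 u hu m hm i0 hi hty
  have e := g1 y V h.yl h.yu h.Vl h.Vu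
  have l : LN q (Kc b) n y V := LN.of e ha0 hb₁.le
  have hn := l.n0
  have hy := l.y0
  have hV := l.V0
  obtain ⟨k15, k8b, k1b, k8d, kC1, kC2, k9, kCb⟩ := Kc_le b
  have k2 : Real.log 2 ≤ Kc b := (Real.log_le_log (by norm_num) (by norm_num)).trans k15
  have hy2 := y_half l k2
  obtain ⟨hAd, hη, hvp, hs2, hy1⟩ := kw_adm h w
  have hdp := w.dl_pos
  have hd1 := w.dl_le
  have hh1 := w.hh_le
  have hhp := w.hh_pos
  have hV1 : V ≤ 1 := by
    refine le_of_log hV one_pos ?_
    rw [Real.log_one]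
    have := l.Vu
    have := l.hi
    have := l.qL
    linarith
  have hηp := h.η0
  have hlp := h.l0
  have hnq : 1 ≤ (n : ℝ) ^ q := Real.one_le_rpow (by
    have := h.n1.le
    exact_mod_cast this) hq.le
  have hlη : 1 ≤ lam * η := by
    have h1 := hnq.trans h.ll
    have h2 : y * (lam * η) ≤ 1 * (lam * η) :=
      mul_le_mul_of_nonneg_right (by linarith) (by positivity)
    linarith
  have hl1 : 1 ≤ lam := by
    have : lam * η ≤ lam * 1 := mul_le_mul_of_nonneg_left (by linarith) hlp.le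
    linarith
  have hy0' : (n : ℝ) ^ (-(1 / 6) + 999 * q) ≤ y := by
    refine le_of_log (by positivity) hy ?_
    rw [Real.log_rpow hn]
    have := l.lo
    linarith
  have hpar : H516.Par1 b (q / 2) (999 * q) n (V - s ^ 2) s lam η y V al :=
    ⟨hvp.le, by ring, hV1, h.s0, hl1, h.η0, by linarith, hlη, hy0', by linarith, h.ap, h.sg⟩
  have hyb : y ^ 2 * b ^ 2 ≤ 4 := by
    have := yb_small hb k8b l
    linarith
  have hs2' : s ^ 2 ≤ V / 2 := by nlinarith
  have hmom := g2 (V - s ^ 2) s lam η y V al hpar hyb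
  have hst : ∀ t ∈ Icc (0 : ℝ) 1, ∀ u ∈ Icc (0 : ℝ) 1,
      H615.PstL (lawOf n b y V al s lam η) t u ≤ (n : ℝ) ^ (-2 : ℝ) := by
    intro t ht u hu
    exact g3 Bool Bool (H418.cb t) (H418.cf (V - s ^ 2) u) lam s η y V al (sum_cb ht.1 ht.2)
      (by rw [sum_cf hvp.le hu.1 hu.2]; ring) hV1 h.s0 hl1 h.η0 (by linarith) h.ll hy
      (by linarith) h.sg
  have hT0 : 0 < T := by
    have := w.T1_pos
    linarith
  have hu1 : u ≤ 1 := by linarith [hu.2]
  obtain ⟨p1, p2⟩ := w.PL_le (s := s) (u := u) (T := T) (lam := lam) (η := η) hs2 hu.1 hu1 hT0.le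
  obtain ⟨r1, r2⟩ := w.LrL_le (s := s) (u := u) (T := T) (lam := lam) (η := η) hs2 hu.1 hu1
    hT0.le
  have hT2' := w.T2_le
  have hms := w.mm_small
  rw [div_le_iff₀ hn] at hms
  have hal0 := w.al_pos
  have hal1 := w.al_le
  refine row_core (b := b) (q := q) l hb h.s0 hs2' h.η0.le h.η1 hlp h.gg hal0.le (by linarith)
    hmom hst (T := T) hT1 (by linarith) (u0 := 1 - 2 * dl q n) (u1 := 1 - dl q n) ?_
    (by linarith) (by linarith) hu (m1 := mm q n y) (m2 := 2 * mm q n y) w.le_mm le_rfl ?_ hm hi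
    hty (r0 := rz b y al) (b_rz hb hy1) (X := (n : ℝ) ^ (5 * q) / y)
    (Y := (n : ℝ) ^ (12 * q) / (y * √y)) p1 p2 (by positivity) ?_ r1 r2 (by positivity) ?_
  · show (n : ℝ) ^ (-(80 * q)) ≤ _
    have : dl q n = (n : ℝ) ^ (-(80 * q)) := rfl
    rw [← this]
    linarith
  · push_cast
    linarith
  · rw [Real.log_div (by positivity) (by positivity), Real.log_rpow hn]
    linarith
  · rw [Real.log_div (by positivity) (by positivity), Real.log_mul (by positivity)
      (by positivity), Real.log_sqrt hy.le, Real.log_rpow hn]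
    linarith

/-- **The lower bound of the relative entropy on the window.** -/
theorem klow {a0 b₁ q A b : ℝ} (hq : 0 < q) (hb : 0 < b) (hA : 1 ≤ A) (ha0 : a0 ≤ 1 / 6)
    (hb₁ : 100 * q < b₁) :
    ∀ᶠ n : ℕ in atTop, ∀ y V al s lam η a : ℝ, KW a0 b₁ q A b n y V al s lam η →
      (n : ℝ) ^ (-(11 * q)) * y ^ 2 ≤ A * a → a ≤ A * ((n : ℝ) ^ (-(10 * q)) * y ^ 2) → a ≤ al →
      n * y ^ 2 * b ^ 2 / 4 * (J (b * y) (2 * a) (V / b ^ 2) - (n : ℝ) ^ (-(36 * q)) * y ^ 4) ≤
        (lawOf n b y V al s lam η).KA := by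
  filter_upwards [lw_ev (a0 := a0) (b₁ := b₁) hq hb hA ha0 hb₁,
    klow_kw (row_low hq hb hA ha0 hb₁)] with n g1 g2
  intro y V al s lam η a h h1 h2 h3
  exact g2 y V al s lam η a h (g1 y V al s lam η a h h1 h2 h3)

end Vale.Agent.P146.H620.Low
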