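import Vale.Agent.P146.H470.Env
import Vale.Agent.P146.H615.ErSk

/-!
# P146, K-LOWER: the numbers of the size of the row equation

`Un = n ^ (36 q) y` bounds the overlap at the smallest hidden share, `tn = n ^ (-200 q) y ^ 2` the
relative error of the linear identities and the rank number, `In = n ^ (148 q) / y` the increment.
-/

open Filter

namespace Vale.Agent.P146.H620.Low

open Vale.Agent.P146.H470

/-- the overlap -/
noncomputable def Un (q : ℝ) (n : ℕ) (y : ℝ) : ℝ := (n : ℝ) ^ (36 * q) * y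

/-- the error of the linear identities, the rank number -/
noncomputable def tn (q : ℝ) (n : ℕ) (y : ℝ) : ℝ := (n : ℝ) ^ (-(200 * q)) * y ^ 2

/-- the increment -/
noncomputable def In (q : ℝ) (n : ℕ) (y : ℝ) : ℝ := (n : ℝ) ^ (148 * q) / y

/-- the common bound -/
noncomputable def Wn (q : ℝ) (n : ℕ) (y : ℝ) : ℝ := (n : ℝ) ^ (-(40 * q)) * y ^ 2

/-- the window in logarithms -/
structure LN (q K : ℝ) (n : ℕ) (y V : ℝ) : Prop where
  n0 : (0 : ℝ) < n
  y0 : 0 < y
  V0 : 0 < V
  L1 : 1 ≤ Real.log n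
  qL : 0 < q * Real.log n
  cst : K ≤ q / 100 * Real.log n
  lo : -(1 / 6) * Real.log n + 999 * (q * Real.log n) ≤ Real.log y
  hi : Real.log y ≤ -(99 * (q * Real.log n))
  Vl : -(24 * (q * Real.log n)) + 3 * Real.log y - q / 100 * Real.log n ≤ Real.log V
  Vu : Real.log V ≤ -(24 * (q * Real.log n)) + 3 * Real.log y + q / 100 * Real.log n

lemma LN.of {a0 b₁ q K : ℝ} {n : ℕ} {y V : ℝ} (h : Env a0 b₁ (24 * q) q K n y V)
    (ha0 : a0 ≤ 1 / 6) (hb₁ : 100 * q ≤ b₁) : LN q K n y V := by
  obtain ⟨h1, h2, h3, h4, h5, h6, h7, h8, h9, h10, h11⟩ := h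
  have m1 : a0 * Real.log n ≤ 1 / 6 * Real.log n := mul_le_mul_of_nonneg_right ha0 (by linarith)
  have m2 : 100 * q * Real.log n ≤ b₁ * Real.log n :=
    mul_le_mul_of_nonneg_right hb₁ (by linarith)
  exact ⟨h1, h2, h3, h4, h5, h6, by linarith, by linarith, by linarith, by linarith⟩

section

variable {q K : ℝ} {n : ℕ} {y V : ℝ}

lemma Un_pos (h : LN q K n y V) : 0 < Un q n y := by
  have := h.n0
  have := h.y0
  unfold Un
  positivity

lemma tn_pos (h : LN q K n y V) : 0 < tn q n y := by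
  have := h.n0
  have := h.y0
  unfold tn
  positivity

lemma In_pos (h : LN q K n y V) : 0 < In q n y := by
  have := h.n0
  have := h.y0
  unfold In
  positivity

lemma Wn_pos (h : LN q K n y V) : 0 < Wn q n y := by
  have := h.n0
  have := h.y0
  unfold Wn
  positivity

lemma log_Un (h : LN q K n y V) : Real.log (Un q n y) = 36 * (q * Real.log n) + Real.log y := by
  have := h.n0
  have := h.y0
  unfold Un
  rw [Real.log_mul (by positivity) (by positivity), Real.log_rpow h.n0]
  ring

lemma log_tn (h : LN q K n y V) :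
    Real.log (tn q n y) = -(200 * (q * Real.log n)) + 2 * Real.log y := by
  have := h.n0
  have := h.y0
  unfold tn
  rw [Real.log_mul (by positivity) (by positivity), Real.log_rpow h.n0, Real.log_pow]
  push_cast
  ring

lemma log_In (h : LN q K n y V) : Real.log (In q n y) = 148 * (q * Real.log n) - Real.log y := by
  have := h.n0
  have := h.y0
  unfold In
  rw [Real.log_div (by positivity) (by positivity), Real.log_rpow h.n0]
  ring

lemma log_Wn (h : LN q K n y V) :
    Real.log (Wn q n y) = -(40 * (q * Real.log n)) + 2 * Real.log y := by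
  have := h.n0
  have := h.y0
  unfold Wn
  rw [Real.log_mul (by positivity) (by positivity), Real.log_rpow h.n0, Real.log_pow]
  push_cast
  ring

/-- `U ≤ 1` -/
lemma Un_le_one (h : LN q K n y V) : Un q n y ≤ 1 := by
  refine le_of_log (Un_pos h) one_pos ?_
  rw [log_Un h, Real.log_one]
  linarith [h.hi, h.qL]

/-- `8 y² b² ≤ 1` -/
lemma yb_small {b : ℝ} (hb : 0 < b) (hK : Real.log (8 * b ^ 2) ≤ K) (h : LN q K n y V) :
    8 * (y ^ 2 * b ^ 2) ≤ 1 := by
  have := h.y0
  have e : 8 * (y ^ 2 * b ^ 2) = (8 * b ^ 2) * y ^ 2 := by ring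
  rw [e]
  refine le_of_log (by positivity) one_pos ?_
  rw [Real.log_mul (by positivity) (by positivity), Real.log_pow, Real.log_one]
  push_cast
  linarith [h.hi, h.qL, h.cst]

/-- the field is smaller than the overlap -/
lemma wf_le {b u vp : ℝ} (hb : 0 < b) (hK : Real.log (1 / b ^ 2) ≤ K) (h : LN q K n y V)
    (hu1 : u ≤ 1) (hv0 : 0 < vp) (hv : vp ≤ V) : u * vp / b ^ 2 ≤ Un q n y := by
  have := h.y0
  have := h.V0
  have h1 : u * vp / b ^ 2 ≤ (1 / b ^ 2) * V := by
    rw [div_mul_eq_mul_div, one_mul]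
    refine div_le_div_of_nonneg_right ?_ (by positivity)
    nlinarith
  refine h1.trans (le_of_log (by positivity) (Un_pos h) ?_)
  rw [log_Un h, Real.log_mul (by positivity) (by positivity)]
  linarith [h.hi, h.qL, h.cst, h.Vu]

/-- **the number of the a-priori sizes** -/
lemma mom_num {b T C1 : ℝ} (hb : 0 < b) (hK : Real.log (8 / b ^ 2) ≤ K)
    (h : LN q K n y V) (hC1 : 0 < C1) (hKC : Real.log C1 ≤ K)
    (hT : (n : ℝ) ^ (-(70 * q)) * y ^ 2 / 2 ≤ T) (p : ℕ) (hp1 : 1 ≤ p) (hp : p ≤ 2) :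
    C1 * (4 * ((n : ℝ) ^ q * y ^ 4) / (b ^ 2 * T)) ^ p ≤ Un q n y ^ (2 * p) := by
  have hn := h.n0
  have hy := h.y0
  have hT0 : 0 < (n : ℝ) ^ (-(70 * q)) * y ^ 2 / 2 := by positivity
  have hT1 : 0 < T := hT0.trans_le hT
  have h1 : 4 * ((n : ℝ) ^ q * y ^ 4) / (b ^ 2 * T) ≤
      (8 / b ^ 2) * ((n : ℝ) ^ (71 * q) * y ^ 2) := by
    rw [div_le_iff₀ (by positivity)]
    have e1 : (n : ℝ) ^ (71 * q) * (n : ℝ) ^ (-(70 * q)) = (n : ℝ) ^ q := by
      rw [← Real.rpow_add hn]
      congr 1
      ring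
    calc 4 * ((n : ℝ) ^ q * y ^ 4) =
        8 / b ^ 2 * ((n : ℝ) ^ (71 * q) * y ^ 2) *
          (b ^ 2 * ((n : ℝ) ^ (-(70 * q)) * y ^ 2 / 2)) := by
          rw [← e1]
          field_simp
          ring
      _ ≤ _ := by gcongr
  have hX : 0 < (8 / b ^ 2) * ((n : ℝ) ^ (71 * q) * y ^ 2) := by positivity
  refine (mul_le_mul_of_nonneg_left (pow_le_pow_left₀ (by positivity) h1 p) hC1.le).trans ?_
  refine le_of_log (by positivity) (pow_pos (Un_pos h) _) ?_
  rw [Real.log_mul hC1.ne' (by positivity), Real.log_pow, Real.log_pow, log_Un h,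
    Real.log_mul (by positivity) (by positivity), Real.log_mul (by positivity) (by positivity),
    Real.log_rpow hn, Real.log_pow]
  push_cast
  have hp' : (1 : ℝ) ≤ p := by exact_mod_cast hp1
  have hp2 : (p : ℝ) ≤ 2 := by exact_mod_cast hp
  have h2 : Real.log (8 / b ^ 2) ≤ q / 100 * Real.log n := hK.trans h.cst
  have h3 : Real.log C1 ≤ q / 100 * Real.log n := hKC.trans h.cst
  have hq := h.qL
  have h4 : (p : ℝ) * Real.log (8 / b ^ 2) ≤ p * (q / 100 * Real.log n) :=
    mul_le_mul_of_nonneg_left h2 (by linarith)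
  have h5 : 1 * (q * Real.log n) ≤ p * (q * Real.log n) :=
    mul_le_mul_of_nonneg_right hp' hq.le
  have e : (p : ℝ) * (Real.log (8 / b ^ 2) + (71 * q * Real.log n + 2 * Real.log y)) =
      p * Real.log (8 / b ^ 2) + 71 * (p * (q * Real.log n)) + 2 * (p * Real.log y) := by ring
  have e2 : 2 * (p : ℝ) * (36 * (q * Real.log n) + Real.log y) =
      72 * (p * (q * Real.log n)) + 2 * (p * Real.log y) := by ring
  have e3 : (p : ℝ) * (q / 100 * Real.log n) = 1 / 100 * (p * (q * Real.log n)) := by ring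
  rw [e, e2]
  rw [e3] at h4
  linarith

/-- `y ≤ 1 / 2` -/
lemma y_half (h : LN q K n y V) (hK : Real.log 2 ≤ K) : y ≤ 1 / 2 := by
  refine le_of_log h.y0 (by norm_num) ?_
  rw [Real.log_div (by norm_num) (by norm_num), Real.log_one]
  linarith [h.hi, h.qL, h.cst]

/-- **the relative error of the linear identities** -/
lemma tn_num {m g r st C : ℝ} (h : LN q K n y V) (hK : Real.log 15 ≤ K) (hC : 0 < C)
    (hKC : Real.log (9 * C) ≤ K) (hm : (n : ℝ) ^ (1 - 110 * q) * y ^ 2 ≤ m)
    (hg : g ≤ 2 * ((n : ℝ) ^ (-(3800 * q)) * y ^ 2)) (hr : r + 1 ≤ C)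
    (hst : st ≤ (n : ℝ) ^ (-2 : ℝ)) :
    5 / √m + 2 * g + 3 * ((r + 1) * √st) / √(Un q n y) ≤ tn q n y := by
  have hn := h.n0
  have hy := h.y0
  have hU := Un_pos h
  have ht := tn_pos h
  have hq := h.qL
  have l1 := h.L1
  have l2 := h.lo
  have l3 := h.hi
  have l4 := h.cst
  have a1 : 5 / √m ≤ tn q n y / 3 := by
    have h1 : 5 / √m ≤ 5 / √((n : ℝ) ^ (1 - 110 * q) * y ^ 2) := by
      have := Real.sqrt_le_sqrt hm
      have h2 : 0 < √((n : ℝ) ^ (1 - 110 * q) * y ^ 2) := Real.sqrt_pos.2 (by positivity)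
      gcongr
    refine h1.trans (le_of_log (by positivity) (by positivity) ?_)
    have e15 : Real.log 15 = Real.log 3 + Real.log 5 := by
      rw [← Real.log_mul (by norm_num) (by norm_num)]
      norm_num
    rw [Real.log_div (by norm_num) (by positivity), Real.log_sqrt (by positivity),
      Real.log_mul (by positivity) (by positivity), Real.log_rpow hn, Real.log_pow,
      Real.log_div ht.ne' (by norm_num), log_tn h]
    push_cast
    linarith
  have a2 : 2 * g ≤ tn q n y / 3 := by
    refine (mul_le_mul_of_nonneg_left hg (by norm_num)).trans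
      (le_of_log (by positivity) (by positivity) ?_)
    have e12 : Real.log 3 + 2 * Real.log 2 ≤ Real.log 15 := by
      rw [show (2 : ℝ) * Real.log 2 = Real.log 4 by
        rw [← Real.log_rpow (by norm_num)]
        norm_num, ← Real.log_mul (by norm_num) (by norm_num)]
      exact Real.log_le_log (by norm_num) (by norm_num)
    rw [Real.log_mul (by norm_num) (by positivity), Real.log_mul (by norm_num) (by positivity),
      Real.log_mul (by positivity) (by positivity), Real.log_rpow hn, Real.log_pow,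
      Real.log_div ht.ne' (by norm_num), log_tn h]
    push_cast
    linarith
  have a3 : 3 * ((r + 1) * √st) / √(Un q n y) ≤ tn q n y / 3 := by
    have h1 : √st ≤ √((n : ℝ) ^ (-2 : ℝ)) := Real.sqrt_le_sqrt hst
    have h2 : 3 * ((r + 1) * √st) / √(Un q n y) ≤
        3 * (C * √((n : ℝ) ^ (-2 : ℝ))) / √(Un q n y) := by
      have := Real.sqrt_pos.2 hU
      gcongr
    refine h2.trans (le_of_log (by positivity) (by positivity) ?_)
    have e9 : Real.log 3 + (Real.log 3 + Real.log C) = Real.log (9 * C) := by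
      rw [Real.log_mul (by norm_num) hC.ne', show (9 : ℝ) = 3 * 3 by norm_num,
        Real.log_mul (by norm_num) (by norm_num)]
      ring
    rw [Real.log_div (by positivity) (by positivity), Real.log_mul (by norm_num) (by positivity),
      Real.log_mul hC.ne' (by positivity), Real.log_sqrt (by positivity),
      Real.log_sqrt (by positivity), Real.log_rpow hn, log_Un h,
      Real.log_div ht.ne' (by norm_num), log_tn h]
    linarith
  linarith

/-- **the rank number** -/
lemma rk_num {R F vp du : ℝ} (h : LN q K n y V) (hK : Real.log 12 ≤ K)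
    (h1 : y ^ 2 * vp * du * R ≤ 6 * F) (hF : F ≤ n * Un q n y) (hvp : V / 2 ≤ vp)
    (hdu : (n : ℝ) ^ (-(80 * q)) ≤ du) (hR : 0 ≤ R) : R / (n : ℝ) ^ 2 ≤ tn q n y := by
  have hn := h.n0
  have hy := h.y0
  have hV := h.V0
  have hU := Un_pos h
  have ht := tn_pos h
  have hdu0 : 0 < (n : ℝ) ^ (-(80 * q)) := Real.rpow_pos_of_pos hn _
  have hvp0 : 0 < vp := by linarith
  have h2 : y ^ 2 * (V / 2) * (n : ℝ) ^ (-(80 * q)) * R ≤ 6 * (n * Un q n y) := by
    have h3 : y ^ 2 * (V / 2) * (n : ℝ) ^ (-(80 * q)) * R ≤ y ^ 2 * vp * du * R := by gcongr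
    linarith
  have h4 : R ≤ 12 * (n * Un q n y) / (y ^ 2 * V * (n : ℝ) ^ (-(80 * q))) := by
    rw [le_div_iff₀ (by positivity)]
    linarith
  have h5 : R / (n : ℝ) ^ 2 ≤
      12 * (n * Un q n y) / (y ^ 2 * V * (n : ℝ) ^ (-(80 * q))) / (n : ℝ) ^ 2 := by gcongr
  refine h5.trans (le_of_log (by positivity) ht ?_)
  have hq := h.qL
  have l1 := h.L1
  have l2 := h.lo
  have l3 := h.Vl
  have l4 := h.cst
  rw [Real.log_div (by positivity) (by positivity), Real.log_div (by positivity) (by positivity),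
    Real.log_mul (by norm_num) (by positivity), Real.log_mul (by positivity) (by positivity),
    Real.log_mul (by positivity) (by positivity), Real.log_mul (by positivity) (by positivity),
    Real.log_rpow hn, Real.log_pow, Real.log_pow, log_Un h, log_tn h]
  push_cast
  linarith

/-- **the increment** -/
lemma inc_num {I Q M : ℝ} (h : LN q K n y V) (hK : Real.log 14 ≤ K)
    (h1 : I ≤ 6 * (n * Q) / M) (hQ : Q ≤ 9 / 4 * Un q n y)
    (hM : (n : ℝ) ^ (1 - 110 * q) * y ^ 2 ≤ M) : I ≤ In q n y := by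
  have hn := h.n0
  have hy := h.y0
  have hU := Un_pos h
  have hI := In_pos h
  have hM0 : 0 < (n : ℝ) ^ (1 - 110 * q) * y ^ 2 := by positivity
  have hM1 : 0 < M := hM0.trans_le hM
  have h2 : I ≤ 14 * (n * Un q n y) / ((n : ℝ) ^ (1 - 110 * q) * y ^ 2) := by
    refine h1.trans ?_
    have h3 : 6 * (n * Q) ≤ 14 * (n * Un q n y) := by nlinarith [mul_pos hn hU]
    calc 6 * (n * Q) / M ≤ 14 * (n * Un q n y) / M := by gcongr
      _ ≤ _ := by gcongr
  refine h2.trans (le_of_log (by positivity) hI ?_)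
  have hq := h.qL
  have l4 := h.cst
  rw [Real.log_div (by positivity) (by positivity), Real.log_mul (by norm_num) (by positivity),
    Real.log_mul (by positivity) (by positivity), Real.log_mul (by positivity) (by positivity),
    Real.log_rpow hn, Real.log_pow, log_Un h, log_In h]
  push_cast
  linarith

/-- the constant of the final sum -/
noncomputable def Cb (b : ℝ) : ℝ :=
  4 * (2 * (3 / (2 * b)) * b ^ 2 * (5 / 2 + 3 / (2 * b)) +
    (3 / (2 * b)) ^ 2 * b ^ 4 * (377 + 12 * (3 / (2 * b))) + 1 + 918 * b ^ 2)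

lemma Cb_pos {b : ℝ} (hb : 0 < b) : 0 < Cb b := by
  unfold Cb
  positivity

/-- the sum, in pure numbers -/
lemma sum_pure {b y kp η U wf θ rk P Lr I cS rn W : ℝ} (hb : 0 < b) (hkp0 : 0 ≤ kp)
    (hk1 : 1 / 2 ≤ b * kp) (hk2 : b * kp ≤ 3 / 2) (hW : 0 ≤ W)
    (t1 : P * (U * θ) ≤ W) (t2 : P * (wf * η) ≤ W) (t3 : P * (y * (U ^ 2 * θ)) ≤ W)
    (t4 : P * (y * (U ^ 2 * η)) ≤ W) (t5 : P * (y * (U * √rk)) ≤ W) (t6 : P * I / cS ≤ W)
    (t7 : Lr * U * √(I + 9 / 4 * U) / rn ≤ W) :
    (P * H615.E1c b y kp η U wf θ rk + P * I / cS +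
      918 * b ^ 2 * Lr * U * √(I + 9 / 4 * U) / rn) / (b * kp) ^ 2 ≤ Cb b * W := by
  set k := 3 / (2 * b) with hk
  have hk0 : 0 < k := by
    rw [hk]
    positivity
  have hkk : kp ≤ k := by
    rw [hk, le_div_iff₀ (by positivity)]
    linarith
  have h1 : P * H615.E1c b y kp η U wf θ rk ≤
      2 * k * b ^ 2 * (5 / 2 + k) * W + k ^ 2 * b ^ 4 * (377 + 12 * k) * W := by
    have e : P * H615.E1c b y kp η U wf θ rk =
        2 * kp * b ^ 2 * (5 / 2 * (P * (U * θ)) + kp * (P * (wf * η))) +
        kp ^ 2 * b ^ 4 * (23 * (P * (y * (U ^ 2 * θ))) + (312 + 12 * kp) *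
          (P * (y * (U ^ 2 * η))) + 42 * (P * (y * (U * √rk)))) := by
      unfold H615.E1c
      ring
    rw [e]
    have a1 : 2 * kp * b ^ 2 * (5 / 2 * (P * (U * θ)) + kp * (P * (wf * η))) ≤
        2 * k * b ^ 2 * (5 / 2 + k) * W := by
      have h2 : 5 / 2 * (P * (U * θ)) + kp * (P * (wf * η)) ≤ (5 / 2 + k) * W := by
        have h3 : kp * (P * (wf * η)) ≤ kp * W := mul_le_mul_of_nonneg_left t2 hkp0
        have h4 : kp * W ≤ k * W := mul_le_mul_of_nonneg_right hkk hW
        linarith
      have h5 : 0 ≤ (5 / 2 + k) * W := by positivity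
      calc 2 * kp * b ^ 2 * (5 / 2 * (P * (U * θ)) + kp * (P * (wf * η)))
          ≤ 2 * kp * b ^ 2 * ((5 / 2 + k) * W) := mul_le_mul_of_nonneg_left h2 (by positivity)
        _ ≤ 2 * k * b ^ 2 * ((5 / 2 + k) * W) := by gcongr
        _ = _ := by ring
    have a2 : kp ^ 2 * b ^ 4 * (23 * (P * (y * (U ^ 2 * θ))) + (312 + 12 * kp) *
          (P * (y * (U ^ 2 * η))) + 42 * (P * (y * (U * √rk)))) ≤
        k ^ 2 * b ^ 4 * (377 + 12 * k) * W := by
      have h2 : 23 * (P * (y * (U ^ 2 * θ))) + (312 + 12 * kp) *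
          (P * (y * (U ^ 2 * η))) + 42 * (P * (y * (U * √rk))) ≤ (377 + 12 * k) * W := by
        have h3 : (312 + 12 * kp) * (P * (y * (U ^ 2 * η))) ≤ (312 + 12 * kp) * W :=
          mul_le_mul_of_nonneg_left t4 (by positivity)
        have h4 : kp * W ≤ k * W := mul_le_mul_of_nonneg_right hkk hW
        linarith
      have h5 : 0 ≤ (377 + 12 * k) * W := by positivity
      calc _ ≤ kp ^ 2 * b ^ 4 * ((377 + 12 * k) * W) :=
            mul_le_mul_of_nonneg_left h2 (by positivity)
        _ ≤ k ^ 2 * b ^ 4 * ((377 + 12 * k) * W) := by gcongr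
        _ = _ := by ring
    linarith
  have h7 : 918 * b ^ 2 * Lr * U * √(I + 9 / 4 * U) / rn ≤ 918 * b ^ 2 * W := by
    have e : 918 * b ^ 2 * Lr * U * √(I + 9 / 4 * U) / rn =
        918 * b ^ 2 * (Lr * U * √(I + 9 / 4 * U) / rn) := by ring
    rw [e]
    exact mul_le_mul_of_nonneg_left t7 (by positivity)
  have hd : 1 / 4 ≤ (b * kp) ^ 2 := by nlinarith
  have hd0 : 0 < (b * kp) ^ 2 := by linarith
  rw [div_le_iff₀ hd0]
  have h8 : Cb b * W * (1 / 4) ≤ Cb b * W * (b * kp) ^ 2 :=
    mul_le_mul_of_nonneg_left hd (mul_nonneg (Cb_pos hb).le hW)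
  have e9 : Cb b * W * (1 / 4) = 2 * k * b ^ 2 * (5 / 2 + k) * W +
      k ^ 2 * b ^ 4 * (377 + 12 * k) * W + W + 918 * b ^ 2 * W := by
    unfold Cb
    rw [← hk]
    ring
  linarith

/-- **The size of the row error.** -/
lemma xe_num {b kp P X Lr Y wf η m : ℝ} (h : LN q K n y V) (hb : 0 < b) (hkp0 : 0 ≤ kp)
    (hk1 : 1 / 2 ≤ b * kp) (hk2 : b * kp ≤ 3 / 2) (hK2 : Real.log 2 ≤ K)
    (hK4 : Real.log 4 ≤ K) (hKb : Real.log (1 / b ^ 2) ≤ K) (hKC : Real.log (Cb b) ≤ K)
    (hP : P ≤ X) (hX0 : 0 < X)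
    (hX : Real.log X ≤ 5 * (q * Real.log n) - Real.log y)
    (hL : Lr ≤ Y) (hY0 : 0 < Y)
    (hY : Real.log Y ≤ 12 * (q * Real.log n) - 3 / 2 * Real.log y)
    (hw0 : 0 ≤ wf) (hw : wf ≤ (1 / b ^ 2) * V) (hη0 : 0 ≤ η)
    (hη : η ≤ (n : ℝ) ^ (-(2000 * q))) (hm : m ≤ n / 2) :
    (P * H615.E1c b y kp η (Un q n y) wf (tn q n y) (tn q n y) + P * In q n y / (n - m) +
      918 * b ^ 2 * Lr * Un q n y * √(In q n y + 9 / 4 * Un q n y) / √n) / (b * kp) ^ 2 ≤
    (n : ℝ) ^ (-(39 * q)) * y ^ 2 := by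
  have hn := h.n0
  have hy := h.y0
  have hV := h.V0
  have hU := Un_pos h
  have ht := tn_pos h
  have hI := In_pos h
  have hW := Wn_pos h
  have hq := h.qL
  have l0 := h.L1
  have l1 := h.lo
  have l2 := h.hi
  have l3 := h.cst
  have l4 := h.Vu
  have hηp : 0 < (n : ℝ) ^ (-(2000 * q)) := Real.rpow_pos_of_pos hn _
  have lη : Real.log ((n : ℝ) ^ (-(2000 * q))) = -(2000 * (q * Real.log n)) := by
    rw [Real.log_rpow hn]
    ring
  have hw1 : 0 < (1 / b ^ 2) * V := by positivity
  have t1 : P * (Un q n y * tn q n y) ≤ Wn q n y := by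
    refine (mul_le_mul_of_nonneg_right hP (by positivity)).trans (le_of_log (by positivity) hW ?_)
    rw [Real.log_mul (by positivity) (by positivity), Real.log_mul (by positivity) (by positivity),
      log_Un h, log_tn h, log_Wn h]
    linarith
  have t2 : P * (wf * η) ≤ Wn q n y := by
    refine (mul_le_mul hP (mul_le_mul hw hη hη0 hw1.le) (by positivity) hX0.le).trans
      (le_of_log (by positivity) hW ?_)
    rw [Real.log_mul (by positivity) (by positivity), Real.log_mul (by positivity) (by positivity),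
      Real.log_mul (by positivity) (by positivity), lη, log_Wn h]
    linarith
  have t3 : P * (y * (Un q n y ^ 2 * tn q n y)) ≤ Wn q n y := by
    refine (mul_le_mul_of_nonneg_right hP (by positivity)).trans (le_of_log (by positivity) hW ?_)
    rw [Real.log_mul (by positivity) (by positivity), Real.log_mul (by positivity) (by positivity),
      Real.log_mul (by positivity) (by positivity), Real.log_pow, log_Un h, log_tn h, log_Wn h]
    push_cast
    linarith
  have t4 : P * (y * (Un q n y ^ 2 * η)) ≤ Wn q n y := by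
    refine (mul_le_mul hP (mul_le_mul_of_nonneg_left (mul_le_mul_of_nonneg_left hη
      (by positivity)) hy.le) (by positivity) hX0.le).trans (le_of_log (by positivity) hW ?_)
    rw [Real.log_mul (by positivity) (by positivity), Real.log_mul (by positivity) (by positivity),
      Real.log_mul (by positivity) (by positivity), Real.log_pow, log_Un h, lη, log_Wn h]
    push_cast
    linarith
  have t5 : P * (y * (Un q n y * √(tn q n y))) ≤ Wn q n y := by
    refine (mul_le_mul_of_nonneg_right hP (by positivity)).trans (le_of_log (by positivity) hW ?_)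
    rw [Real.log_mul (by positivity) (by positivity), Real.log_mul (by positivity) (by positivity),
      Real.log_mul (by positivity) (by positivity), Real.log_sqrt ht.le, log_Un h, log_tn h,
      log_Wn h]
    linarith
  have hnm : (n : ℝ) / 2 ≤ n - m := by linarith
  have t6 : P * In q n y / (n - m) ≤ Wn q n y := by
    have h1 : P * In q n y / (n - m) ≤ X * In q n y / ((n : ℝ) / 2) := by gcongr
    refine h1.trans (le_of_log (by positivity) hW ?_)
    rw [Real.log_div (by positivity) (by positivity), Real.log_mul (by positivity) (by positivity),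
      Real.log_div (by positivity) (by norm_num), log_In h, log_Wn h]
    linarith
  have t7 : Lr * Un q n y * √(In q n y + 9 / 4 * Un q n y) / √n ≤ Wn q n y := by
    have h1 : Un q n y ≤ In q n y := by
      refine le_of_log hU hI ?_
      rw [log_Un h, log_In h]
      linarith
    have h2 : √(In q n y + 9 / 4 * Un q n y) ≤ √(4 * In q n y) :=
      Real.sqrt_le_sqrt (by linarith)
    have h3 : Lr * Un q n y * √(In q n y + 9 / 4 * Un q n y) / √n ≤
        Y * Un q n y * √(4 * In q n y) / √n := by gcongr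
    refine h3.trans (le_of_log (by positivity) hW ?_)
    rw [Real.log_div (by positivity) (by positivity), Real.log_mul (by positivity) (by positivity),
      Real.log_mul (by positivity) (by positivity), Real.log_sqrt (by positivity),
      Real.log_sqrt (by positivity), Real.log_mul (by norm_num) (by positivity), log_Un h,
      log_In h, log_Wn h]
    linarith
  refine (sum_pure hb hkp0 hk1 hk2 hW.le t1 t2 t3 t4 t5 t6 t7).trans ?_
  have hC := Cb_pos hb
  refine le_of_log (by positivity) (by positivity) ?_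
  rw [Real.log_mul (by positivity) (by positivity), Real.log_mul (by positivity) (by positivity),
    Real.log_rpow hn, Real.log_pow, log_Wn h]
  push_cast
  linarith

/-- the other two sizes -/
lemma U2_le (h : LN q K n y V) : Un q n y ^ 2 ≤ (n : ℝ) ^ (100 * q) * y ^ 2 := by
  have hn := h.n0
  have hy := h.y0
  have hU := Un_pos h
  have hq := h.qL
  refine le_of_log (by positivity) (by positivity) ?_
  rw [Real.log_pow, log_Un h, Real.log_mul (by positivity) (by positivity), Real.log_rpow hn,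
    Real.log_pow]
  push_cast
  linarith

lemma tn_le (h : LN q K n y V) : tn q n y ≤ (n : ℝ) ^ (-(100 * q)) * y ^ 2 := by
  have hn := h.n0
  have hy := h.y0
  have ht := tn_pos h
  have hq := h.qL
  refine le_of_log ht (by positivity) ?_
  rw [log_tn h, Real.log_mul (by positivity) (by positivity), Real.log_rpow hn, Real.log_pow]
  push_cast
  linarith

end

end Vale.Agent.P146.H620.Low
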