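import Vale.Agent.P146.H620.S3Low
import Vale.Agent.P146.H470.S3LowA

/-!
# P146, K-LOWER: the lower bound of the relative entropy, eventually in the size and the unit

`rowLowQ`: `H470.RowLowQ` holds; `klow`: port of `H620.Low.klow`.
-/

open MeasureTheory ProbabilityTheory Filter Topology Set

namespace Vale.Agent.P146.S3

open Vale.Agent.P146.H418 Vale.Agent.P146.H470 Vale.Agent.P146.H529 Vale.Agent.P146.H317

/-- **The size of the row equation at the typical points.** -/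
theorem rowLowQ {a0 b₁ A b : ℝ} (hb : 0 < b) (hA : 1 ≤ A) (ha0 : a0 ≤ 1 / 6) (hb₁ : 0 < b₁) :
    RowLowQ a0 b₁ A b := row_low hb hA ha0 hb₁

/-- **The lower bound of the relative entropy on the window.** -/
theorem klow {a0 b₁ A b : ℝ} (hb : 0 < b) (hA : 1 ≤ A) (ha0 : a0 ≤ 1 / 6) (hb₁ : 0 < b₁) :
    EV fun n q => ∀ y V al s lam η a : ℝ, KW a0 b₁ q A b n y V al s lam η →
      (n : ℝ) ^ (-(11 * q)) * y ^ 2 ≤ A * a → a ≤ A * ((n : ℝ) ^ (-(10 * q)) * y ^ 2) → a ≤ al →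
      n * y ^ 2 * b ^ 2 / 4 * (J (b * y) (2 * a) (V / b ^ 2) - (n : ℝ) ^ (-(36 * q)) * y ^ 4) ≤
        (lawOf n b y V al s lam η).KA := by
  refine EV.imp2 (lw_evQ hb hA ha0 hb₁) (klow_kwQ (rowLowQ hb hA ha0 hb₁)) fun n q g1 g2 => ?_
  intro y V al s lam η a h h1 h2 h3
  exact g2 y V al s lam η a h (g1 y V al s lam η a h h1 h2 h3)

end Vale.Agent.P146.S3
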