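import Vale.Agent.P146.H620.KampLow
import Vale.Agent.P146.H470.LowB

/-!
# P146: `KampLow`, both choices of the modulated field
-/

namespace Vale.Agent.P146.H620.Low

open Vale.Agent.P146.H470 Vale.Agent.P146.H178 Vale.Agent.P146.H529

/-- **`KampLow`, first choice** (`s² = n^(-37q) y⁴`, `a0 ≤ 1/7`). -/
theorem kampLow_A {β b₁ e q a0 : ℝ} (hβ : 0 < β) (hq : 0 < q) (ha0 : a0 ≤ 1 / 7)
    (hb₁ : 100 * q < b₁) (he : 1 / 6 - a0 + 1000 * q ≤ e) :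
    KampLow β b₁ e (q / 2) (10 * q) (11 * q) (24 * q) q (Kam β (sA q) (lA q) (hA q)) :=
  kampLow_one hβ hq ha0 hb₁ he fun _ h => row_low hq hβ h (by linarith) hb₁

/-- **`KampLow`, second choice** (`s² = n^(-80q) V`, `a0 ≤ 1/6`). -/
theorem kampLow_B {β b₁ e q a0 : ℝ} (hβ : 0 < β) (hq : 0 < q) (ha0 : a0 ≤ 1 / 6)
    (hb₁ : 100 * q < b₁) (he : 1 / 6 - a0 + 1000 * q ≤ e) :
    KampLow β b₁ e (q / 2) (10 * q) (11 * q) (24 * q) q (Kam β (sB q) (lA q) (hA q)) :=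
  kampLow_two hβ hq ha0 hb₁ he fun _ h => row_low hq hβ h ha0 hb₁

end Vale.Agent.P146.H620.Low
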