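import Vale.Agent.P146.H620.LowN
import Vale.Agent.P146.H643.KLow
import Vale.Agent.P146.H418.Par

/-!
# P146, K-LOWER: the size of the row equation at a typical point

* `row_core`: one `n`, from the moments of the overlap and the tail of the amplitude.
-/

open MeasureTheory ProbabilityTheory Filter Topology Set

namespace Vale.Agent.P146.H620.Low

open Vale.Agent.P157.Lv hiding Dep
open Vale.Agent.P146.H425 Vale.Agent.P146.H646
open Vale.Agent.P146.H325 hiding cb cf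
open Vale.Agent.P146.H196 Vale.Agent.P146.H347 Vale.Agent.P146.H475 Vale.Agent.P146.H418
  Vale.Agent.P146.H412 Vale.Agent.P146.H320 Vale.Agent.P146.H615

set_option linter.unusedSectionVars false

section means

variable {L : Law} {t u : ℝ}

/-- the mean of the overlap from the second moment -/
lemma exQ_le (hl : 0 < L.lam) (hη : 0 ≤ L.η) (hη1 : L.η ≤ 1 / 2) (hn : 0 < L.n)
    (S : Finset (Fin L.n)) {U : ℝ} (hU : 0 ≤ U) (h : L.ex' t u (CC L S t u) ≤ U ^ 2) :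
    L.ex' t u (L.Q S t u) ≤ 9 / 4 * U := by
  have hw : Wt (g1 (Co L.n Bool Bool)) (L.wt t u) := wtL hl hη t u
  have h1 : L.ex' t u (L.Q S t u) ≤ √(L.ex' t u fun z => L.Q S t u z ^ 2) :=
    H615.ex_le_sqrt hw (bm_Q hl hη S t u)
  have h2 := mom_Q hl hη hn S t u 1
  simp only [mul_one, pow_one] at h2
  have h3 : (1 + L.η) ^ 4 * L.ex' t u (fun z => CC L S t u z) ≤ (9 / 4 * U) ^ 2 := by
    have h4 : (1 + L.η) ^ 4 ≤ (3 / 2) ^ 4 := pow_le_pow_left₀ (by linarith) (by linarith) 4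
    calc (1 + L.η) ^ 4 * L.ex' t u (fun z => CC L S t u z) ≤ (3 / 2) ^ 4 * U ^ 2 := by
          refine mul_le_mul h4 h ?_ (by positivity)
          exact H615.ex_nonneg hw fun z => CC_nonneg hl hη S t u z
      _ = _ := by ring
  refine h1.trans ?_
  exact H615.sqrt_le_num (by positivity) (h2.trans h3)

/-- the first moments from the second moment -/
lemma ff_le (hl : 0 < L.lam) (hη : 0 ≤ L.η) (hn : 0 < L.n)
    (S : Finset (Fin L.n)) {U : ℝ} (hU : 0 ≤ U) (h : L.ex' t u (CC L S t u) ≤ U ^ 2) :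
    L.ff S t u ≤ L.n * U := by
  have hn0 : (0 : ℝ) < L.n := by exact_mod_cast hn
  have hw : Wt (g1 (Co L.n Bool Bool)) (L.wt t u) := wtL hl hη t u
  have h1 : L.ex' t u (L.Q0 S t u) ≤ √(L.ex' t u fun z => L.Q0 S t u z ^ 2) :=
    H615.ex_le_sqrt hw (bm_Q0 hl hη S t u)
  have h2 := mom_Q0 hl hη hn S t u 1
  simp only [mul_one, pow_one] at h2
  have h3 : L.ex' t u (L.Q0 S t u) ≤ U := h1.trans (H615.sqrt_le_num hU (h2.trans h))
  have h4 : L.ex' t u (L.Q0 S t u) = (L.n : ℝ)⁻¹ * L.ff S t u := by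
    have e : L.Q0 S t u = fun z => (L.n : ℝ)⁻¹ *
        ∑ i ∈ S, L.cx' S t u (fun w => H325.sp w.2 i) z ^ 2 := by
      funext z
      unfold Law.Q0
      rw [div_eq_inv_mul]
    rw [e]
    unfold Law.ff Law.ex'
    rw [H615.ex_cmul]
  rw [h4, inv_mul_le_iff₀ hn0] at h3
  exact h3

lemma rk_eq (S : Finset (Fin L.n)) :
    L.rk S t u = rkL L (H418.cb t) (H418.cf L.vp u) S (Kset S {true} {true}) / (L.n : ℝ) ^ 2 :=
  rfl

end means

/-- the constants of the window -/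
noncomputable def Kc (b : ℝ) : ℝ :=
  |Real.log 15| + |Real.log (8 * b ^ 2)| + |Real.log (1 / b ^ 2)| + |Real.log (8 / b ^ 2)| +
    |Real.log (Cp 1)| + |Real.log (Cp 2)| + |Real.log (9 * (2 * (1 + 2 / b) + 1))| +
    |Real.log (Cb b)|

lemma Kc_le (b : ℝ) : Real.log 15 ≤ Kc b ∧ Real.log (8 * b ^ 2) ≤ Kc b ∧
    Real.log (1 / b ^ 2) ≤ Kc b ∧ Real.log (8 / b ^ 2) ≤ Kc b ∧ Real.log (Cp 1) ≤ Kc b ∧
    Real.log (Cp 2) ≤ Kc b ∧ Real.log (9 * (2 * (1 + 2 / b) + 1)) ≤ Kc b ∧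
    Real.log (Cb b) ≤ Kc b := by
  have a1 := le_abs_self (Real.log 15)
  have a2 := le_abs_self (Real.log (8 * b ^ 2))
  have a3 := le_abs_self (Real.log (1 / b ^ 2))
  have a4 := le_abs_self (Real.log (8 / b ^ 2))
  have a5 := le_abs_self (Real.log (Cp 1))
  have a6 := le_abs_self (Real.log (Cp 2))
  have a7 := le_abs_self (Real.log (9 * (2 * (1 + 2 / b) + 1)))
  have a8 := le_abs_self (Real.log (Cb b))
  have b1 := abs_nonneg (Real.log 15)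
  have b2 := abs_nonneg (Real.log (8 * b ^ 2))
  have b3 := abs_nonneg (Real.log (1 / b ^ 2))
  have b4 := abs_nonneg (Real.log (8 / b ^ 2))
  have b5 := abs_nonneg (Real.log (Cp 1))
  have b6 := abs_nonneg (Real.log (Cp 2))
  have b7 := abs_nonneg (Real.log (9 * (2 * (1 + 2 / b) + 1)))
  have b8 := abs_nonneg (Real.log (Cb b))
  unfold Kc
  refine ⟨?_, ?_, ?_, ?_, ?_, ?_, ?_, ?_⟩ <;> linarith

lemma Cp_pos (p : ℕ) : 0 < Cp p := by
  unfold Cp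
  positivity

/-- the constant `r0` is bounded -/
lemma r0_le {b y r0 al : ℝ} (hb : 0 < b) (hy : 0 < y) (hy1 : y ≤ 1 / 2) (hal0 : 0 ≤ al)
    (hal1 : al ≤ 1 / 2) (hr : b * (1 - (1 - y) * r0) = 1 + al) :
    |r0| + 1 ≤ 2 * (1 + 2 / b) + 1 := by
  have h1 : (1 - y) * r0 = 1 - (1 + al) / b := by
    field_simp
    linarith
  have h2 : |(1 - y) * r0| ≤ 1 + 2 / b := by
    rw [h1]
    have h3 : (1 + al) / b ≤ 2 / b := by
      refine div_le_div_of_nonneg_right (by linarith) hb.le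
    have h4 : 0 ≤ (1 + al) / b := by positivity
    rw [abs_le]
    constructor <;> linarith
  rw [abs_mul, abs_of_pos (by linarith : 0 < 1 - y)] at h2
  have h5 := abs_nonneg r0
  nlinarith

lemma kp_nonneg {b k al : ℝ} (hb : 0 < b) (hal : 0 ≤ al) (h : b * k = 1 + al) : 0 ≤ k := by
  have h1 : 0 ≤ b * k := by linarith
  exact (mul_nonneg_iff_of_pos_left hb).1 h1

section core

variable {q b : ℝ} {n : ℕ} {y V al s lam η T : ℝ}

/-- the a-priori sizes at the share `T` -/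
lemma apr (h : LN q (Kc b) n y V) (hb : 0 < b)
    (hmom : ∀ t : ℝ, 0 ≤ t → t < 1 → ∀ u ∈ Icc (0 : ℝ) 1, ∀ (S : Finset (Fin n)) (p : ℕ),
      (lawOf n b y V al s lam η).ex' t u
        (fun z => H412.CC (lawOf n b y V al s lam η) S t u z ^ p) ≤
      Cp p * (4 * ((n : ℝ) ^ q * y ^ 4) / (b ^ 2 * (1 - t))) ^ p)
    (hT1 : (n : ℝ) ^ (-(70 * q)) * y ^ 2 / 2 ≤ T) (hT2 : T ≤ 1 / 2) {u : ℝ}
    (hu : u ∈ Icc (0 : ℝ) 1) (S : Finset (Fin n)) :
    (lawOf n b y V al s lam η).ex' (1 - T) u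
      (H412.CC (lawOf n b y V al s lam η) S (1 - T) u) ≤ Un q n y ^ 2 ∧
    (lawOf n b y V al s lam η).ex' (1 - T) u
      (fun z => H412.CC (lawOf n b y V al s lam η) S (1 - T) u z ^ 2) ≤ Un q n y ^ 4 := by
  have hn := h.n0
  have hy := h.y0
  have hT0 : 0 < T := lt_of_lt_of_le (by positivity) hT1
  obtain ⟨_, _, _, k8d, kC1, kC2, _, _⟩ := Kc_le b
  have e : 1 - (1 - T) = T := by ring
  constructor
  · have h1 := hmom (1 - T) (by linarith only [hT2]) (by linarith only [hT0]) u hu S 1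
    have h2 := mom_num hb k8d h (Cp_pos 1) kC1 hT1 1 le_rfl (by norm_num)
    rw [e] at h1
    have h3 := h1.trans h2
    simpa only [pow_one, mul_one] using h3
  · have h1 := hmom (1 - T) (by linarith only [hT2]) (by linarith only [hT0]) u hu S 2
    have h2 := mom_num hb k8d h (Cp_pos 2) kC2 hT1 2 (by norm_num) le_rfl
    rw [e] at h1
    exact h1.trans h2

/-- the share of the rate -/
lemma gg_le {g sn : ℝ} (hy2 : y ≤ 1 / 2) (hlam : 0 < lam) (hsn : 0 < sn) (hg0 : 0 ≤ g)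
    (hgg : lam ≤ g * sn) : |lam / ((1 - y) * sn)| ≤ 2 * g := by
  have h1 : 0 < 1 - y := by linarith
  rw [abs_of_pos (by positivity), div_le_iff₀ (by positivity)]
  have h2 : 1 ≤ 2 * (1 - y) := by linarith
  have h3 : 0 ≤ g * sn := by positivity
  nlinarith

/-- the small numbers -/
lemma small (h : LN q (Kc b) n y V) (hη : η ≤ (n : ℝ) ^ (-(2000 * q))) :
    η ≤ 1 / 2 ∧ y ≤ 1 / 2 ∧ 0 < n := by
  have hn := h.n0
  obtain ⟨k15, _⟩ := Kc_le b
  have k2 : Real.log 2 ≤ Kc b := (Real.log_le_log (by norm_num) (by norm_num)).trans k15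
  refine ⟨?_, y_half h k2, by exact_mod_cast hn⟩
  refine hη.trans (H470.le_of_log (Real.rpow_pos_of_pos hn _) (by norm_num) ?_)
  rw [Real.log_rpow hn, Real.log_div (by norm_num) (by norm_num), Real.log_one]
  linarith [h.cst, h.qL]

/-- **The rank number and the increment.** -/
theorem typ_num (h : LN q (Kc b) n y V) (hb : 0 < b) (hs2 : s ^ 2 ≤ V / 2) (hη0 : 0 ≤ η)
    (hη : η ≤ (n : ℝ) ^ (-(2000 * q))) (hlam : 0 < lam)
    (hmom : ∀ t : ℝ, 0 ≤ t → t < 1 → ∀ u ∈ Icc (0 : ℝ) 1, ∀ (S : Finset (Fin n)) (p : ℕ),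
      (lawOf n b y V al s lam η).ex' t u
        (fun z => H412.CC (lawOf n b y V al s lam η) S t u z ^ p) ≤
      Cp p * (4 * ((n : ℝ) ^ q * y ^ 4) / (b ^ 2 * (1 - t))) ^ p)
    (hT1 : (n : ℝ) ^ (-(70 * q)) * y ^ 2 / 2 ≤ T) (hT2 : T ≤ 1 / 2)
    {u0 u1 u : ℝ} (hdu : (n : ℝ) ^ (-(80 * q)) ≤ u1 - u0) (hu1m : u1 ∈ Icc (0 : ℝ) 1)
    {m1 m2 m : ℕ} (hm1 : (n : ℝ) ^ (1 - 110 * q) * y ^ 2 ≤ m1)
    (h2m : 2 * m1 ≤ m2) {i0 : Fin n} (hi : i0.1 + m = n)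
    (hty : H643.TypL (lawOf n b y V al s lam η) u0 u1 m1 m2 T u m) :
    (lawOf n b y V al s lam η).rk (Sn n m) (1 - T) u ≤ tn q n y ∧
    incL (lawOf n b y V al s lam η) (H418.cb (1 - T)) (H418.cf (V - s ^ 2) u) (Sn n m)
      (Kset (Sn n m) {true} {true}) (Kset (insert i0 (Sn n m)) {true} {true}) ≤ In q n y := by
  have hU := Un_pos h
  obtain ⟨hη1, hy2, hnn⟩ := small h hη
  obtain ⟨k15, _⟩ := Kc_le b
  have k12 : Real.log 12 ≤ Kc b := (Real.log_le_log (by norm_num) (by norm_num)).trans k15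
  have k14 : Real.log 14 ≤ Kc b := (Real.log_le_log (by norm_num) (by norm_num)).trans k15
  have hUu := (apr h hb hmom hT1 hT2 hu1m Finset.univ).1
  have hQ1 : (lawOf n b y V al s lam η).ex' (1 - T) u1
      ((lawOf n b y V al s lam η).Q Finset.univ (1 - T) u1) ≤ 9 / 4 * Un q n y :=
    exQ_le (L := lawOf n b y V al s lam η) hlam hη0 hη1 hnn _ hU.le hUu
  have hF1 : (lawOf n b y V al s lam η).ff Finset.univ (1 - T) u1 ≤ n * Un q n y :=
    ff_le (L := lawOf n b y V al s lam η) hlam hη0 hnn _ hU.le hUu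
  constructor
  · have h1 := hty.rk (Sn n m) (Or.inl rfl)
    refine (rk_eq (L := lawOf n b y V al s lam η) (t := 1 - T) (u := u) (Sn n m)).le.trans ?_
    refine rk_num (vp := V - s ^ 2) h k12 h1 hF1 (by linarith only [hs2]) hdu ?_
    refine H615.ex_nonneg (wtL (L := lawOf n b y V al s lam η) hlam hη0 (1 - T) u) fun z => ?_
    exact Finset.sum_nonneg fun _ _ => Finset.sum_nonneg fun _ _ => sq_nonneg _
  · have hinc := hty.inc i0 hi
    refine inc_num h k14 hinc hQ1 (hm1.trans ?_)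
    have : (2 * m1 : ℝ) ≤ m2 := by exact_mod_cast h2m
    linarith only [this]

/-- **The three sizes at one `n`.** -/
theorem row_core (h : LN q (Kc b) n y V) (hb : 0 < b)
    (hs0 : 0 < s) (hs2 : s ^ 2 ≤ V / 2) (hη0 : 0 ≤ η) (hη : η ≤ (n : ℝ) ^ (-(2000 * q)))
    (hlam : 0 < lam) (hgg : lam ≤ (n : ℝ) ^ (-(3800 * q)) * y ^ 2 * (s ^ 2 * n))
    (hal0 : 0 ≤ al) (hal1 : al ≤ 1 / 2)
    (hmom : ∀ t : ℝ, 0 ≤ t → t < 1 → ∀ u ∈ Icc (0 : ℝ) 1, ∀ (S : Finset (Fin n)) (p : ℕ),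
      (lawOf n b y V al s lam η).ex' t u
        (fun z => H412.CC (lawOf n b y V al s lam η) S t u z ^ p) ≤
      Cp p * (4 * ((n : ℝ) ^ q * y ^ 4) / (b ^ 2 * (1 - t))) ^ p)
    (hst : ∀ t ∈ Icc (0 : ℝ) 1, ∀ u ∈ Icc (0 : ℝ) 1,
      PstL (lawOf n b y V al s lam η) t u ≤ (n : ℝ) ^ (-2 : ℝ))
    (hT1 : (n : ℝ) ^ (-(70 * q)) * y ^ 2 / 2 ≤ T) (hT2 : T ≤ 1 / 2)
    {u0 u1 u : ℝ} (hdu : (n : ℝ) ^ (-(80 * q)) ≤ u1 - u0) (hu0 : 0 < u0) (hu1 : u1 ≤ 1)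
    (hu : u ∈ Icc u0 u1) {m1 m2 m : ℕ} (hm1 : (n : ℝ) ^ (1 - 110 * q) * y ^ 2 ≤ m1)
    (h2m : 2 * m1 ≤ m2) (hm2 : (m2 : ℝ) ≤ n / 2) (hm : m ∈ Finset.Icc m1 m2)
    {i0 : Fin n} (hi : i0.1 + m = n)
    (hty : H643.TypL (lawOf n b y V al s lam η) u0 u1 m1 m2 T u m)
    {r0 : ℝ} (hr : b * (1 - (1 - y) * r0) = 1 + al)
    {P Lr X Y : ℝ} (hP0 : 0 ≤ P) (hP : P ≤ X) (hX0 : 0 < X)
    (hX : Real.log X ≤ 5 * (q * Real.log n) - Real.log y)
    (hL0 : 0 ≤ Lr) (hL : Lr ≤ Y) (hY0 : 0 < Y)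
    (hY : Real.log Y ≤ 12 * (q * Real.log n) - 3 / 2 * Real.log y) :
    H643.XE (lawOf n b y V al s lam η) r0 P Lr m (1 - T) u i0 ≤ (n : ℝ) ^ (-(39 * q)) * y ^ 2 ∧
    H643.CC (lawOf n b y V al s lam η) (Sn n m) (1 - T) u ≤ (n : ℝ) ^ (100 * q) * y ^ 2 ∧
    (lawOf n b y V al s lam η).rk (Sn n m) (1 - T) u ≤ (n : ℝ) ^ (-(100 * q)) * y ^ 2 := by
  have hn := h.n0
  have hy := h.y0
  have hV := h.V0
  have hU := Un_pos h
  obtain ⟨hη1, hy2, hnn⟩ := small h hη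
  obtain ⟨k15, k8b, k1b, k8d, kC1, kC2, k9, kCb⟩ := Kc_le b
  have k2 : Real.log 2 ≤ Kc b := (Real.log_le_log (by norm_num) (by norm_num)).trans k15
  have k4 : Real.log 4 ≤ Kc b := (Real.log_le_log (by norm_num) (by norm_num)).trans k15
  have hT0 : 0 < T := lt_of_lt_of_le (by positivity) hT1
  have hT1' : 0 ≤ 1 - T := by linarith only [hT2]
  have hT1'' : 1 - T ≤ 1 := by linarith only [hT0]
  have hvp0 : 0 < V - s ^ 2 := by linarith only [hs2, hV]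
  have hvpV : V - s ^ 2 ≤ V := by linarith only [sq_nonneg s]
  have hu0' : 0 < u := hu0.trans_le hu.1
  have hu1' : u ≤ 1 := hu.2.trans hu1
  have hum : u ∈ Icc (0 : ℝ) 1 := ⟨hu0'.le, hu1'⟩
  have hu1m : u1 ∈ Icc (0 : ℝ) 1 := ⟨hu0'.le.trans hu.2, hu1⟩
  have hmm := Finset.mem_Icc.1 hm
  have hmR : (n : ℝ) ^ (1 - 110 * q) * y ^ 2 ≤ m := hm1.trans (by exact_mod_cast hmm.1)
  have hmR2 : (m : ℝ) ≤ n / 2 := le_trans (by exact_mod_cast hmm.2) hm2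
  have hmn : m ≤ n := by omega
  have hA : Adm (lawOf n b y V al s lam η) :=
    ⟨hnn, hb, hvp0, hlam, hη0, hy.le, by show y ≤ 1; linarith only [hy2]⟩
  have hkp0 : 0 ≤ 1 - (1 - y) * r0 := kp_nonneg hb hal0 hr
  have hr1 : 1 / 2 ≤ b * (1 - (1 - y) * r0) := by rw [hr]; linarith only [hal0]
  have hr2 : b * (1 - (1 - y) * r0) ≤ 3 / 2 := by rw [hr]; linarith only [hal1]
  have hUu := (apr h hb hmom hT1 hT2 hum Finset.univ).1
  have hUS := (apr h hb hmom hT1 hT2 hum (Sn n m)).2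
  obtain ⟨hrk, hI⟩ := typ_num h hb hs2 hη0 hη hlam hmom hT1 hT2 hdu hu1m hm1 h2m hi hty
  have hr0 := r0_le hb hy hy2 hal0 hal1 hr
  have hg : |lam / ((1 - y) * (s ^ 2 * n))| ≤ 2 * ((n : ℝ) ^ (-(3800 * q)) * y ^ 2) :=
    gg_le hy2 hlam (by positivity) (by positivity) hgg
  have hθ : 5 / √m + 2 * |lam / ((1 - y) * (s ^ 2 * n))| +
      3 * ((|r0| + 1) * √(PstL (lawOf n b y V al s lam η) (1 - T) u)) / √(Un q n y) ≤
      tn q n y :=
    tn_num h k15 (by positivity) k9 hmR hg hr0 (hst (1 - T) ⟨hT1', hT1''⟩ u hum)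
  have hw := wf_le hb k1b h hu1' hvp0 hvpV
  have hw0 : 0 ≤ u * (V - s ^ 2) / b ^ 2 := by positivity
  have hw1 : u * (V - s ^ 2) / b ^ 2 ≤ 1 / b ^ 2 * V := by
    rw [div_mul_eq_mul_div, one_mul]
    refine div_le_div_of_nonneg_right ?_ (by positivity)
    have h1 : u * (V - s ^ 2) ≤ 1 * (V - s ^ 2) := mul_le_mul_of_nonneg_right hu1' hvp0.le
    linarith only [h1, hvpV]
  refine ⟨?_, ?_, hrk.trans (tn_le h)⟩
  · have key := xe_sk (L := lawOf n b y V al s lam η) hA hη1 (r0 := r0) hkp0 (m := m) hmn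
      (t := 1 - T) hT1' hT1'' hu0'.le (U := Un q n y) hw hU (Un_le_one h)
      (yb_small hb k8b h) hUu hUS hrk hθ hP0 hL0 hi hI
    exact key.trans (xe_num (K := Kc b) (kp := 1 - (1 - y) * r0) (X := X) (Y := Y) h hb hkp0
      hr1 hr2 k2 k4 k1b kCb hP hX0 hX hL hY0 hY hw0 hw1 hη0 hη hmR2)
  · exact (show H643.CC (lawOf n b y V al s lam η) (Sn n m) (1 - T) u ≤ _ from
      (apr h hb hmom hT1 hT2 hum (Sn n m)).1).trans (U2_le h)

end core

end Vale.Agent.P146.H620.Low
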