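import Mathlib.MeasureTheory.Integral.Bochner.Basic
import Mathlib.MeasureTheory.Integral.Bochner.Set
import Mathlib.Analysis.SpecialFunctions.Log.Deriv
import Mathlib.Analysis.Complex.Exponential
import Mathlib.Tactic

/-!
(K3), the second order in the source. Let
`N r = ∫ P exp (- p log (cosh r + m sinh r) + r^2 / 2 d)`, `|m| ≤ 1`, `d` bounded. If
`N r N (-r) ≤ (N 0)^2` for small `r` then
`(∫ P) (∫ P (p^2 m^2 - p (1 - m^2) + d)) ≤ (p ∫ P m)^2` (`second`).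
-/

open MeasureTheory Filter Topology

namespace Vale.Agent.P146.H620.Sec

/-- the exponential at the second order -/
lemma exp_low {y : ℝ} (hy : |y| ≤ 1) : 1 + y + y ^ 2 / 2 - |y| ^ 3 ≤ Real.exp y := by
  have h := Real.exp_bound hy (n := 3) (by norm_num)
  have e : ∑ m ∈ Finset.range 3, y ^ m / (m.factorial : ℝ) = 1 + y + y ^ 2 / 2 := by
    simp [Finset.sum_range_succ, Nat.factorial]
  rw [e] at h
  have h1 := (abs_le.1 h).1
  have h2 : |y| ^ 3 * ((Nat.succ 3 : ℕ) / ((Nat.factorial 3 : ℕ) * (3 : ℕ)) : ℝ) ≤ |y| ^ 3 := by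
    have h3 : ((Nat.succ 3 : ℕ) / ((Nat.factorial 3 : ℕ) * (3 : ℕ)) : ℝ) ≤ 1 := by
      norm_num [Nat.factorial]
    exact mul_le_of_le_one_right (by positivity) h3
  push_cast at h2 h1
  linarith

lemma exp_two {y : ℝ} (hy : |y| ≤ 1) : |Real.exp y - (1 + y + y ^ 2 / 2)| ≤ |y| ^ 3 := by
  have h := Real.exp_bound hy (n := 3) (by norm_num)
  have e : ∑ m ∈ Finset.range 3, y ^ m / (m.factorial : ℝ) = 1 + y + y ^ 2 / 2 := by
    simp [Finset.sum_range_succ, Nat.factorial]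
  rw [e] at h
  refine h.trans ?_
  have h3 : ((Nat.succ 3 : ℕ) / ((Nat.factorial 3 : ℕ) * (3 : ℕ)) : ℝ) ≤ 1 := by
    norm_num [Nat.factorial]
  exact mul_le_of_le_one_right (by positivity) h3

/-- `cosh r + m sinh r` at the second order -/
lemma ch_two {r m : ℝ} (hr : |r| ≤ 1) (hm : |m| ≤ 1) :
    |Real.cosh r + m * Real.sinh r - (1 + m * r + r ^ 2 / 2)| ≤ 2 * |r| ^ 3 := by
  have h1 := exp_two hr
  have h2 := exp_two (y := -r) (by rwa [abs_neg])
  rw [abs_neg] at h2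
  have e : Real.cosh r + m * Real.sinh r - (1 + m * r + r ^ 2 / 2) =
      (1 + m) / 2 * (Real.exp r - (1 + r + r ^ 2 / 2)) +
      (1 - m) / 2 * (Real.exp (-r) - (1 + -r + (-r) ^ 2 / 2)) := by
    rw [Real.cosh_eq, Real.sinh_eq]
    ring
  rw [e]
  have hm1 := abs_le.1 hm
  have a1 : |(1 + m) / 2| ≤ 1 := by
    rw [abs_le]
    constructor <;> linarith [hm1.1, hm1.2]
  have a2 : |(1 - m) / 2| ≤ 1 := by
    rw [abs_le]
    constructor <;> linarith [hm1.1, hm1.2]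
  refine (abs_add_le _ _).trans ?_
  rw [abs_mul, abs_mul]
  have b1 := mul_le_mul a1 h1 (abs_nonneg _) zero_le_one
  have b2 := mul_le_mul a2 h2 (abs_nonneg _) zero_le_one
  linarith

/-- the logarithm at the second order -/
lemma log_two {t : ℝ} (ht : |t| ≤ 1 / 2) : |Real.log (1 + t) - (t - t ^ 2 / 2)| ≤ 2 * |t| ^ 3 := by
  have h := Real.abs_log_sub_add_sum_range_le (x := -t) (by rw [abs_neg]; linarith) 2
  have e : ∑ i ∈ Finset.range 2, (-t) ^ (i + 1) / ((i : ℝ) + 1) = -t + t ^ 2 / 2 := by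
    simp [Finset.sum_range_succ]
    ring
  rw [e, abs_neg, sub_neg_eq_add] at h
  have e2 : Real.log (1 + t) - (t - t ^ 2 / 2) = -t + t ^ 2 / 2 + Real.log (1 + t) := by ring
  rw [e2]
  refine h.trans ?_
  rw [div_le_iff₀ (by linarith)]
  have : 0 ≤ |t| ^ 3 := by positivity
  have e3 : |t| ^ (2 + 1) = |t| ^ 3 := rfl
  rw [e3]
  nlinarith

/-- the logarithm of `cosh r + m sinh r` at the second order -/
lemma lch_two {r m : ℝ} (hr : |r| ≤ 1 / 8) (hm : |m| ≤ 1) :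
    |Real.log (Real.cosh r + m * Real.sinh r) - (m * r + r ^ 2 / 2 * (1 - m ^ 2))| ≤
      20 * |r| ^ 3 := by
  have hr1 : |r| ≤ 1 := by linarith
  have h1 := ch_two hr1 hm
  obtain ⟨t, ht⟩ : ∃ t, t = Real.cosh r + m * Real.sinh r - 1 := ⟨_, rfl⟩
  obtain ⟨δ, hδ⟩ : ∃ δ, δ = t - (m * r + r ^ 2 / 2) := ⟨_, rfl⟩
  have hδ1 : |δ| ≤ 2 * |r| ^ 3 := by
    rw [hδ, ht]
    refine le_trans (le_of_eq ?_) h1
    congr 1
    ring
  have e1 : Real.cosh r + m * Real.sinh r = 1 + t := by rw [ht]; ring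
  have e2 : t = m * r + r ^ 2 / 2 + δ := by rw [hδ]; ring
  have ha := abs_nonneg r
  have r2 : |r| ^ 2 = r ^ 2 := sq_abs r
  have hmr : |m * r| ≤ |r| := by
    rw [abs_mul]
    exact mul_le_of_le_one_left ha hm
  have hs : |m * r + r ^ 2 / 2| ≤ |r| + r ^ 2 / 2 := by
    refine (abs_add_le _ _).trans ?_
    rw [abs_of_nonneg (by positivity : 0 ≤ r ^ 2 / 2)]
    linarith
  have hr3 : |r| ^ 3 ≤ |r| / 64 := by
    have : |r| ^ 2 ≤ 1 / 64 := by nlinarith
    calc |r| ^ 3 = |r| * |r| ^ 2 := by ring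
      _ ≤ |r| * (1 / 64) := mul_le_mul_of_nonneg_left this ha
      _ = |r| / 64 := by ring
  have hr2 : r ^ 2 ≤ |r| / 8 := by
    rw [← r2]
    nlinarith
  have ht1 : |t| ≤ 2 * |r| := by
    rw [e2]
    refine (abs_add_le _ _).trans ?_
    linarith
  have ht2 : |t| ≤ 1 / 2 := by linarith
  have h3 := log_two ht2
  rw [e1]
  have e3 : Real.log (1 + t) - (m * r + r ^ 2 / 2 * (1 - m ^ 2)) =
      (Real.log (1 + t) - (t - t ^ 2 / 2)) + (δ - (t ^ 2 - m ^ 2 * r ^ 2) / 2) := by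
    rw [hδ]
    ring
  rw [e3]
  refine (abs_add_le _ _).trans ?_
  have h4 : |t| ^ 3 ≤ 8 * |r| ^ 3 := by
    calc |t| ^ 3 ≤ (2 * |r|) ^ 3 := pow_le_pow_left₀ (abs_nonneg t) ht1 3
      _ = 8 * |r| ^ 3 := by ring
  have h5 : |t ^ 2 - m ^ 2 * r ^ 2| ≤ 3 * |r| ^ 3 := by
    have e4 : t ^ 2 - m ^ 2 * r ^ 2 = (t - m * r) * (t + m * r) := by ring
    have e5 : t - m * r = r ^ 2 / 2 + δ := by rw [e2]; ring
    rw [e4, abs_mul]
    have h6 : |t - m * r| ≤ |r| ^ 2 := by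
      rw [e5]
      refine (abs_add_le _ _).trans ?_
      rw [abs_of_nonneg (by positivity : 0 ≤ r ^ 2 / 2), ← r2]
      have : 2 * |r| ^ 3 ≤ |r| ^ 2 / 2 := by
        have e6 : 2 * |r| ^ 3 = (2 * |r|) * |r| ^ 2 := by ring
        rw [e6]
        have : (2 * |r|) * |r| ^ 2 ≤ (1 / 2) * |r| ^ 2 :=
          mul_le_mul_of_nonneg_right (by linarith) (sq_nonneg _)
        linarith
      linarith
    have h7 : |t + m * r| ≤ 3 * |r| := (abs_add_le _ _).trans (by linarith)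
    calc |t - m * r| * |t + m * r| ≤ |r| ^ 2 * (3 * |r|) :=
          mul_le_mul h6 h7 (abs_nonneg _) (sq_nonneg _)
      _ = 3 * |r| ^ 3 := by ring
  have h0 : 0 ≤ |r| ^ 3 := by positivity
  have h8 : |δ - (t ^ 2 - m ^ 2 * r ^ 2) / 2| ≤ 4 * |r| ^ 3 := by
    refine (abs_sub _ _).trans ?_
    rw [abs_div, abs_of_pos (by norm_num : (0 : ℝ) < 2)]
    linarith
  linarith

/-- the integrand at the second order -/
lemma integrand {p D : ℝ} (hp : 0 ≤ p) (hD : 0 ≤ D) : ∃ C r1 : ℝ, 0 ≤ C ∧ 0 < r1 ∧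
    ∀ r m d : ℝ, |r| ≤ r1 → |m| ≤ 1 → |d| ≤ D →
      1 - p * m * r + r ^ 2 / 2 * (p ^ 2 * m ^ 2 - p * (1 - m ^ 2) + d) - C * |r| ^ 3 ≤
        Real.exp (-p * Real.log (Real.cosh r + m * Real.sinh r) + r ^ 2 / 2 * d) := by
  obtain ⟨E, hE⟩ : ∃ E, E = 2 * p + D + 20 * p + 1 := ⟨_, rfl⟩
  have hE1 : 1 ≤ E := by rw [hE]; linarith
  refine ⟨E ^ 3 + 20 * p + E * (3 * E), min (1 / 8) (1 / E), by positivity, by positivity, ?_⟩
  intro r m d hr hm hd
  have hr8 : |r| ≤ 1 / 8 := hr.trans (min_le_left _ _)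
  have hrE : |r| * E ≤ 1 := by
    have := hr.trans (min_le_right _ _)
    rwa [le_div_iff₀ (by linarith)] at this
  have ha := abs_nonneg r
  have r2 : |r| ^ 2 = r ^ 2 := sq_abs r
  obtain ⟨l, hl⟩ : ∃ l, l = Real.log (Real.cosh r + m * Real.sinh r) := ⟨_, rfl⟩
  have h1 := lch_two hr8 hm
  rw [← hl] at h1 ⊢
  obtain ⟨δ, hδ⟩ : ∃ δ, δ = l - (m * r + r ^ 2 / 2 * (1 - m ^ 2)) := ⟨_, rfl⟩
  rw [← hδ] at h1
  obtain ⟨y, hy⟩ : ∃ y, y = -p * l + r ^ 2 / 2 * d := ⟨_, rfl⟩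
  rw [← hy]
  have m2 : m ^ 2 ≤ 1 := by
    rw [← sq_abs]
    exact pow_le_one₀ (abs_nonneg m) hm
  have hr3 : |r| ^ 3 ≤ |r| ^ 2 := by
    have : |r| ^ 3 = |r| * |r| ^ 2 := by ring
    rw [this]
    exact mul_le_of_le_one_left (sq_nonneg _) (by linarith)
  have hr21 : |r| ^ 2 ≤ |r| := by nlinarith
  -- `y + p m r` is of order `r ^ 2`
  have e1 : y = -p * m * r + (r ^ 2 / 2 * (-p * (1 - m ^ 2) + d) - p * δ) := by
    rw [hy, hδ]
    ring
  have h2 : |y - -p * m * r| ≤ E * |r| ^ 2 := by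
    have e2 : y - -p * m * r = r ^ 2 / 2 * (-p * (1 - m ^ 2) + d) - p * δ := by
      rw [e1]
      ring
    rw [e2]
    refine (abs_sub _ _).trans ?_
    rw [abs_mul, abs_mul, abs_of_nonneg (by positivity : 0 ≤ r ^ 2 / 2), abs_of_nonneg hp, ← r2]
    have h3 : |-p * (1 - m ^ 2) + d| ≤ p + D := by
      refine (abs_add_le _ _).trans ?_
      rw [abs_mul, abs_neg, abs_of_nonneg hp, abs_of_nonneg (by linarith : 0 ≤ 1 - m ^ 2)]
      have : p * (1 - m ^ 2) ≤ p * 1 := mul_le_mul_of_nonneg_left (by nlinarith) hp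
      linarith
    have h4 : |r| ^ 2 / 2 * |-p * (1 - m ^ 2) + d| ≤ |r| ^ 2 / 2 * (p + D) :=
      mul_le_mul_of_nonneg_left h3 (by positivity)
    have h5 : p * |δ| ≤ p * (20 * |r| ^ 2) :=
      mul_le_mul_of_nonneg_left (h1.trans (by linarith)) hp
    have h6 : 0 ≤ |r| ^ 2 := sq_nonneg _
    rw [hE]
    nlinarith
  have h3 : |p * m * r| ≤ p * |r| := by
    rw [abs_mul, abs_mul, abs_of_nonneg hp]
    have : p * |m| * |r| ≤ p * 1 * |r| :=
      mul_le_mul_of_nonneg_right (mul_le_mul_of_nonneg_left hm hp) ha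
    linarith
  have h4 : |y| ≤ E * |r| := by
    have e3 : y = (y - -p * m * r) + -(p * m * r) := by ring
    rw [e3]
    refine (abs_add_le _ _).trans ?_
    rw [abs_neg]
    have h5 : E * |r| ^ 2 ≤ E * |r| * (1 / 8) := by
      have : |r| ^ 2 ≤ |r| * (1 / 8) := by nlinarith
      calc E * |r| ^ 2 ≤ E * (|r| * (1 / 8)) := mul_le_mul_of_nonneg_left this (by linarith)
        _ = _ := by ring
    have h6 : 2 * p * |r| ≤ E * |r| := by
      refine mul_le_mul_of_nonneg_right ?_ ha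
      rw [hE]
      linarith
    nlinarith
  have hy1 : |y| ≤ 1 := h4.trans (by linarith [mul_comm E |r|])
  have h5 := exp_low hy1
  have h6 : |y| ^ 3 ≤ E ^ 3 * |r| ^ 3 := by
    calc |y| ^ 3 ≤ (E * |r|) ^ 3 := pow_le_pow_left₀ (abs_nonneg y) h4 3
      _ = _ := by ring
  -- the square
  have h7 : p ^ 2 * m ^ 2 * r ^ 2 - E * (3 * E) * |r| ^ 3 ≤ y ^ 2 := by
    have e4 : y ^ 2 - p ^ 2 * m ^ 2 * r ^ 2 = (y - -p * m * r) * (y - p * m * r) := by ring
    have h8 : |y - p * m * r| ≤ 2 * E * |r| := by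
      refine (abs_sub _ _).trans ?_
      have : p * |r| ≤ E * |r| := by
        refine mul_le_mul_of_nonneg_right ?_ ha
        rw [hE]
        linarith
      linarith
    have h9 : |(y - -p * m * r) * (y - p * m * r)| ≤ E * |r| ^ 2 * (2 * E * |r|) := by
      rw [abs_mul]
      exact mul_le_mul h2 h8 (abs_nonneg _) (by positivity)
    have h10 := (abs_le.1 h9).1
    rw [← e4] at h10
    have h11 : E * |r| ^ 2 * (2 * E * |r|) ≤ E * (3 * E) * |r| ^ 3 := by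
      have : 0 ≤ E * E * |r| ^ 3 := by positivity
      nlinarith
    linarith
  have h8 : p * δ ≤ 20 * p * |r| ^ 3 := by
    have := mul_le_mul_of_nonneg_left ((le_abs_self δ).trans h1) hp
    linarith
  have h9 : 0 ≤ E * (3 * E) * |r| ^ 3 := by positivity
  obtain ⟨Q, hQ⟩ : ∃ Q, Q = r ^ 2 / 2 * (-p * (1 - m ^ 2) + d) := ⟨_, rfl⟩
  have e6 : r ^ 2 / 2 * (p ^ 2 * m ^ 2 - p * (1 - m ^ 2) + d) =
      p ^ 2 * m ^ 2 * r ^ 2 / 2 + Q := by
    rw [hQ]
    ring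
  have e7 : (E ^ 3 + 20 * p + E * (3 * E)) * |r| ^ 3 =
      E ^ 3 * |r| ^ 3 + 20 * p * |r| ^ 3 + E * (3 * E) * |r| ^ 3 := by ring
  rw [← hQ] at e1
  have e8 : -p * m * r = -(p * m * r) := by ring
  rw [e8] at e1
  rw [e6, e7]
  linarith

variable {α : Type*} [MeasurableSpace α] {ν : Measure α} {P m d : α → ℝ} {p D : ℝ}

/-- the function of the source -/
noncomputable def Nr (ν : Measure α) (P m d : α → ℝ) (p r : ℝ) : ℝ :=
  ∫ u, P u * Real.exp (-p * Real.log (Real.cosh r + m u * Real.sinh r) + r ^ 2 / 2 * d u) ∂ν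

lemma int_N (hp : 0 ≤ p) (hPi : Integrable P ν) (hm : Measurable m) (hm1 : ∀ u, |m u| ≤ 1)
    (hd : Measurable d) (hd1 : ∀ u, |d u| ≤ D) {r : ℝ} (hr : |r| ≤ 1 / 8) :
    Integrable (fun u => P u * Real.exp (-p * Real.log (Real.cosh r + m u * Real.sinh r) +
      r ^ 2 / 2 * d u)) ν := by
  refine hPi.mul_bdd (c := Real.exp (4 * p + |D|)) ?_ (Filter.Eventually.of_forall fun u => ?_)
  · have h1 : Measurable fun u => Real.cosh r + m u * Real.sinh r :=
      (hm.mul_const _).const_add _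
    exact (((h1.log.const_mul (-p)).add (hd.const_mul _)).exp).aestronglyMeasurable
  · rw [Real.norm_eq_abs, abs_of_pos (Real.exp_pos _)]
    refine Real.exp_le_exp.2 ?_
    have h1 := lch_two hr (hm1 u)
    obtain ⟨l, hl⟩ : ∃ l, l = Real.log (Real.cosh r + m u * Real.sinh r) := ⟨_, rfl⟩
    rw [← hl] at h1 ⊢
    have h2 := (abs_le.1 h1).1
    have ha := abs_nonneg r
    have h3 : |m u * r| ≤ 1 := by
      rw [abs_mul]
      exact mul_le_one₀ (hm1 u) ha (by linarith)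
    have h4 : |r| ^ 3 ≤ 1 / 8 := by
      calc |r| ^ 3 ≤ (1 / 8) ^ 3 := pow_le_pow_left₀ ha hr 3
        _ ≤ 1 / 8 := by norm_num
    have m2 : m u ^ 2 ≤ 1 := by
      rw [← sq_abs]
      exact pow_le_one₀ (abs_nonneg _) (hm1 u)
    have h5 : 0 ≤ r ^ 2 / 2 * (1 - m u ^ 2) := mul_nonneg (by positivity) (by linarith)
    have h6 : -4 ≤ l := by
      have := (abs_le.1 h3).1
      linarith
    have h7 : r ^ 2 ≤ 1 := by
      rw [← sq_abs]
      exact pow_le_one₀ ha (by linarith)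
    have h8 : r ^ 2 / 2 * d u ≤ |D| := by
      have h9 : d u ≤ |D| := ((le_abs_self _).trans (hd1 u)).trans (le_abs_self _)
      have h10 : 0 ≤ |D| := abs_nonneg _
      calc r ^ 2 / 2 * d u ≤ r ^ 2 / 2 * |D| := mul_le_mul_of_nonneg_left h9 (by positivity)
        _ ≤ 1 * |D| := mul_le_mul_of_nonneg_right (by linarith) h10
        _ = |D| := one_mul _
    nlinarith

/-- the real inequality behind `second` -/
theorem arith {a b c C r0 r1 : ℝ} {N : ℝ → ℝ} (ha : 0 < a) (hC : 0 ≤ C) (hr0 : 0 < r0)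
    (hr1 : 0 < r1) (hr18 : r1 ≤ 1 / 8)
    (hlow : ∀ r : ℝ, |r| ≤ r1 → a - b * r + r ^ 2 / 2 * c - C * |r| ^ 3 * a ≤ N r)
    (hN : ∀ r : ℝ, |r| ≤ r0 → N r * N (-r) ≤ a ^ 2) : a * c ≤ b ^ 2 := by
  by_contra hcon
  push Not at hcon
  obtain ⟨g, hg⟩ : ∃ g, g = a * c - b ^ 2 := ⟨_, rfl⟩
  have hg0 : 0 < g := by rw [hg]; linarith
  have hCa : 0 ≤ C * a := mul_nonneg hC ha.le
  have hCa2 : 0 ≤ C * a ^ 2 := mul_nonneg hC (sq_nonneg a)
  have hden1 : 0 < |b| + |c| + C * a + 1 := by positivity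
  have hden2 : 0 < 2 * (2 * (C * a ^ 2) + 1) := by positivity
  obtain ⟨r, hr⟩ : ∃ r, r = min (min r0 r1) (min (a / (|b| + |c| + C * a + 1))
    (g / (2 * (2 * (C * a ^ 2) + 1)))) := ⟨_, rfl⟩
  have hrp : 0 < r := by
    rw [hr]
    exact lt_min (lt_min hr0 hr1) (lt_min (div_pos ha hden1) (div_pos hg0 hden2))
  have k1 : r ≤ r0 := by rw [hr]; exact (min_le_left _ _).trans (min_le_left _ _)
  have k2 : r ≤ r1 := by rw [hr]; exact (min_le_left _ _).trans (min_le_right _ _)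
  have k3 : r ≤ a / (|b| + |c| + C * a + 1) := by
    rw [hr]; exact (min_le_right _ _).trans (min_le_left _ _)
  have k4 : r ≤ g / (2 * (2 * (C * a ^ 2) + 1)) := by
    rw [hr]; exact (min_le_right _ _).trans (min_le_right _ _)
  clear hr
  have k5 : r ≤ 1 / 8 := k2.trans hr18
  have habs : |r| = r := abs_of_pos hrp
  have l1 := hlow r (by rw [habs]; exact k2)
  have l2 := hlow (-r) (by rw [abs_neg, habs]; exact k2)
  have l3 := hN r (by rw [habs]; exact k1)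
  rw [abs_neg] at l2
  rw [habs] at l1 l2
  obtain ⟨A, hA⟩ : ∃ A, A = a + r ^ 2 / 2 * c - C * r ^ 3 * a := ⟨_, rfl⟩
  have l1' : A - b * r ≤ N r := by rw [hA]; linarith
  have l2' : A + b * r ≤ N (-r) := by
    rw [hA]
    have e : (-r) ^ 2 = r ^ 2 := by ring
    rw [e] at l2
    linarith
  have r2 : r ^ 2 ≤ 1 := by
    have := mul_le_mul k5 k5 hrp.le (by norm_num)
    nlinarith
  -- positivity of the lower bounds
  have hAb : |b| * r ≤ A := by
    rw [le_div_iff₀ hden1] at k3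
    have h1 : -(r * |c|) ≤ r ^ 2 / 2 * c := by
      have h2 : -|c| ≤ c := neg_abs_le c
      have h3 : r ^ 2 / 2 * (-|c|) ≤ r ^ 2 / 2 * c :=
        mul_le_mul_of_nonneg_left h2 (by positivity)
      have h5 : r ^ 2 / 2 ≤ r := by
        have : r ^ 2 = r * r := by ring
        have h6 : r * r ≤ r * 1 := mul_le_mul_of_nonneg_left (by linarith) hrp.le
        linarith
      have h4 : r ^ 2 / 2 * |c| ≤ r * |c| := mul_le_mul_of_nonneg_right h5 (abs_nonneg c)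
      linarith
    have h2 : C * r ^ 3 * a ≤ r * (C * a) := by
      have h3 : r ^ 3 ≤ r := by
        have : r ^ 3 = r * r ^ 2 := by ring
        rw [this]
        exact mul_le_of_le_one_right hrp.le r2
      calc C * r ^ 3 * a = r ^ 3 * (C * a) := by ring
        _ ≤ r * (C * a) := mul_le_mul_of_nonneg_right h3 hCa
    have h3 : r * (|b| + |c| + C * a + 1) = |b| * r + r * |c| + r * (C * a) + r := by ring
    rw [h3] at k3
    rw [hA]
    linarith
  have hb1 : 0 ≤ A - b * r := by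
    have := mul_le_mul_of_nonneg_right (le_abs_self b) hrp.le
    linarith
  have hb2 : 0 ≤ A + b * r := by
    have := mul_le_mul_of_nonneg_right (neg_abs_le b) hrp.le
    linarith
  have h5 : (A - b * r) * (A + b * r) ≤ a ^ 2 :=
    (mul_le_mul l1' l2' hb2 (hb1.trans l1')).trans l3
  have h5' : A ^ 2 - b ^ 2 * r ^ 2 ≤ a ^ 2 := by
    refine le_trans (le_of_eq ?_) h5
    ring
  have h6 : a ^ 2 + 2 * a * (r ^ 2 / 2 * c - C * r ^ 3 * a) ≤ A ^ 2 := by
    obtain ⟨q, hq⟩ : ∃ q, q = r ^ 2 / 2 * c - C * r ^ 3 * a := ⟨_, rfl⟩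
    have h7 : A = a + q := by rw [hA, hq]; ring
    rw [h7, ← hq]
    have : (a + q) ^ 2 = a ^ 2 + 2 * a * q + q ^ 2 := by ring
    rw [this]
    linarith [sq_nonneg q]
  have h6' : 2 * a * (r ^ 2 / 2 * c - C * r ^ 3 * a) =
      a * c * r ^ 2 - 2 * (C * a ^ 2) * r ^ 3 := by ring
  have h7 : g * r ^ 2 ≤ 2 * (C * a ^ 2) * r ^ 3 := by
    have : g * r ^ 2 = a * c * r ^ 2 - b ^ 2 * r ^ 2 := by rw [hg]; ring
    rw [this]
    rw [h6'] at h6
    linarith
  have h8 : g ≤ 2 * (C * a ^ 2) * r := by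
    have h9 : g * r ^ 2 ≤ (2 * (C * a ^ 2) * r) * r ^ 2 := by
      refine h7.trans (le_of_eq ?_)
      ring
    exact le_of_mul_le_mul_right h9 (by positivity)
  rw [le_div_iff₀ hden2] at k4
  have h9 : r * (2 * (2 * (C * a ^ 2) + 1)) = 2 * (2 * (C * a ^ 2) * r) + 2 * r := by ring
  rw [h9] at k4
  linarith

/-- the integrability of the second-order density -/
theorem int_two (hp : 0 ≤ p) (hPi : Integrable P ν) (hm : Measurable m)
    (hm1 : ∀ u, |m u| ≤ 1) (hd : Measurable d) (hd1 : ∀ u, |d u| ≤ D) :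
    Integrable (fun u => P u * (p ^ 2 * m u ^ 2 - p * (1 - m u ^ 2) + d u)) ν := by
  refine hPi.mul_bdd (c := p ^ 2 + p + |D|) ?_ (Filter.Eventually.of_forall fun u => ?_)
  · exact ((((hm.pow_const 2).const_mul _).sub (((hm.pow_const 2).const_sub 1).const_mul p)).add
      hd).aestronglyMeasurable
  · rw [Real.norm_eq_abs]
    have m2 : m u ^ 2 ≤ 1 := by
      rw [← sq_abs]
      exact pow_le_one₀ (abs_nonneg _) (hm1 u)
    have m0 : 0 ≤ m u ^ 2 := sq_nonneg _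
    refine (abs_add_le _ _).trans (add_le_add ?_ ((hd1 u).trans (le_abs_self D)))
    refine (abs_sub _ _).trans (add_le_add ?_ ?_)
    · rw [abs_of_nonneg (by positivity)]
      exact mul_le_of_le_one_right (sq_nonneg p) m2
    · rw [abs_of_nonneg (mul_nonneg hp (by linarith))]
      exact mul_le_of_le_one_right hp (by linarith)

/-- the lower bound of `N` -/
theorem low (hp : 0 ≤ p) (hPi : Integrable P ν) (hP0 : ∀ u, 0 ≤ P u)
    (hm : Measurable m) (hm1 : ∀ u, |m u| ≤ 1) (hd : Measurable d) (hd1 : ∀ u, |d u| ≤ D)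
    {C r : ℝ} (hr : |r| ≤ 1 / 8)
    (hint : ∀ v d' : ℝ, |v| ≤ 1 → |d'| ≤ |D| →
      1 - p * v * r + r ^ 2 / 2 * (p ^ 2 * v ^ 2 - p * (1 - v ^ 2) + d') - C * |r| ^ 3 ≤
        Real.exp (-p * Real.log (Real.cosh r + v * Real.sinh r) + r ^ 2 / 2 * d')) :
    (∫ u, P u ∂ν) - (p * ∫ u, P u * m u ∂ν) * r + r ^ 2 / 2 *
      (∫ u, P u * (p ^ 2 * m u ^ 2 - p * (1 - m u ^ 2) + d u) ∂ν) - C * |r| ^ 3 * (∫ u, P u ∂ν) ≤
      Nr ν P m d p r := by
  have i1 : Integrable (fun u => P u * m u) ν :=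
    hPi.mul_bdd (c := 1) hm.aestronglyMeasurable
      (Filter.Eventually.of_forall fun u => by rw [Real.norm_eq_abs]; exact hm1 u)
  have i2 := int_two hp hPi hm hm1 hd hd1
  have h1 : ∫ u, (P u - (p * r) * (P u * m u) + r ^ 2 / 2 * (P u *
      (p ^ 2 * m u ^ 2 - p * (1 - m u ^ 2) + d u)) - C * |r| ^ 3 * P u) ∂ν ≤
      Nr ν P m d p r := by
    unfold Nr
    refine integral_mono (((hPi.sub (i1.const_mul _)).add (i2.const_mul _)).sub
      (hPi.const_mul _)) (int_N hp hPi hm hm1 hd hd1 hr)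
      fun u => ?_
    simp only
    have h2 := hint (m u) (d u) (hm1 u) ((hd1 u).trans (le_abs_self D))
    have h3 := mul_le_mul_of_nonneg_left h2 (hP0 u)
    refine le_trans (le_of_eq ?_) h3
    ring
  refine le_trans (le_of_eq ?_) h1
  have j1 : Integrable (fun u => P u - (p * r) * (P u * m u)) ν := hPi.sub (i1.const_mul _)
  have j2 : Integrable (fun u => P u - (p * r) * (P u * m u) + r ^ 2 / 2 * (P u *
      (p ^ 2 * m u ^ 2 - p * (1 - m u ^ 2) + d u))) ν := j1.add (i2.const_mul _)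
  rw [integral_sub j2 (hPi.const_mul _), integral_add j1 (i2.const_mul _),
    integral_sub hPi (i1.const_mul _), integral_const_mul, integral_const_mul,
    integral_const_mul]
  ring

/-- **The second order in the source.** -/
theorem second (hp : 0 ≤ p) (hPi : Integrable P ν) (hP0 : ∀ u, 0 ≤ P u) (hpos : 0 < ∫ u, P u ∂ν)
    (hm : Measurable m) (hm1 : ∀ u, |m u| ≤ 1) (hd : Measurable d) (hd1 : ∀ u, |d u| ≤ D)
    {r0 : ℝ} (hr0 : 0 < r0)
    (hN : ∀ r, |r| ≤ r0 → Nr ν P m d p r * Nr ν P m d p (-r) ≤ (∫ u, P u ∂ν) ^ 2) :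
    (∫ u, P u ∂ν) * ∫ u, P u * (p ^ 2 * m u ^ 2 - p * (1 - m u ^ 2) + d u) ∂ν ≤
      (p * ∫ u, P u * m u ∂ν) ^ 2 := by
  have hD : 0 ≤ |D| := abs_nonneg D
  obtain ⟨C, r1, hC, hr1, hint⟩ := integrand hp hD
  exact arith (r1 := min r1 (1 / 8)) (N := Nr ν P m d p) hpos hC hr0
    (lt_min hr1 (by norm_num)) (min_le_right _ _)
    (fun r hr => low hp hPi hP0 hm hm1 hd hd1 (hr.trans (min_le_right _ _))
      fun v d' hv hd' => hint r v d' (hr.trans (min_le_left _ _)) hv hd') hN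

/-- the version with an arbitrarily small loss -/
theorem second' (hp : 0 ≤ p) (hPi : Integrable P ν) (hP0 : ∀ u, 0 ≤ P u)
    (hpos : 0 < ∫ u, P u ∂ν) (hm : Measurable m) (hm1 : ∀ u, |m u| ≤ 1) (hd : Measurable d)
    (hd1 : ∀ u, |d u| ≤ D)
    (hN : ∀ del : ℝ, 0 < del → ∃ r0 : ℝ, 0 < r0 ∧ ∀ r, |r| ≤ r0 →
      Nr ν P m (fun u => d u - del) p r * Nr ν P m (fun u => d u - del) p (-r) ≤
        (∫ u, P u ∂ν) ^ 2) :
    (∫ u, P u ∂ν) * ∫ u, P u * (p ^ 2 * m u ^ 2 - p * (1 - m u ^ 2) + d u) ∂ν ≤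
      (p * ∫ u, P u * m u ∂ν) ^ 2 := by
  have hD : 0 ≤ |D| := abs_nonneg D
  have i2 := int_two hp hPi hm hm1 hd hd1
  set a := ∫ u, P u ∂ν with ha
  set c := ∫ u, P u * (p ^ 2 * m u ^ 2 - p * (1 - m u ^ 2) + d u) ∂ν with hc
  refine le_of_forall_pos_le_add fun ε hε => ?_
  obtain ⟨del, hdel⟩ : ∃ del, del = ε / a ^ 2 := ⟨_, rfl⟩
  have hdel0 : 0 < del := by rw [hdel]; positivity
  obtain ⟨r0, hr0, h⟩ := hN del hdel0
  have h1 := second (D := |D| + del) hp hPi hP0 hpos hm hm1 (hd.sub_const del) (fun u => by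
    refine (abs_sub _ _).trans ?_
    rw [abs_of_pos hdel0]
    have := (hd1 u).trans (le_abs_self D)
    linarith) hr0 h
  have e1 : ∫ u, P u * (p ^ 2 * m u ^ 2 - p * (1 - m u ^ 2) + (d u - del)) ∂ν =
      c - del * a := by
    rw [hc, ha, ← integral_const_mul, ← integral_sub i2 (hPi.const_mul _)]
    refine integral_congr_ae (Filter.Eventually.of_forall fun u => ?_)
    simp only
    ring
  rw [e1, ← ha] at h1
  have e2 : a * (c - del * a) = a * c - ε := by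
    rw [hdel]
    have : a ≠ 0 := hpos.ne'
    field_simp
  rw [e2] at h1
  linarith

end Vale.Agent.P146.H620.Sec
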