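import Mathlib.Analysis.SpecialFunctions.Pow.Asymptotics
import Mathlib.Analysis.SpecialFunctions.Sqrt
import Mathlib.Analysis.Asymptotics.Lemmas
import Mathlib.Tactic

/-!
# Sizes, uniformly on a domain

`FD D` is the filter of the pairs `(n, a)` with `n → ∞` and `a` in the domain `D n`, so that
`∀ᶠ p in FD D, P p` means `∀ᶠ n, ∀ a, D n a → P (n, a)`, and the whole calculus of
`Asymptotics.IsBigO` is available for estimates which are uniform on the domain.

`mo n y V T a b c d = n ^ a * y ^ b * V ^ c * T ^ d` are the monomials; they are compared through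
logarithms (`mo_le`, `mo_O`), where everything is linear.
-/

open Filter Asymptotics

namespace Vale.Agent.P146.H620.Sz

variable {α : Type*} {D : ℕ → α → Prop}

/-- large `n`, uniformly on the domain -/
def FD (D : ℕ → α → Prop) : Filter (ℕ × α) :=
  Filter.comap Prod.fst atTop ⊓ Filter.principal {p | D p.1 p.2}

theorem ev_iff {P : ℕ × α → Prop} :
    (∀ᶠ p in FD D, P p) ↔ ∀ᶠ n in atTop, ∀ a, D n a → P (n, a) := by
  unfold FD
  rw [Filter.eventually_inf_principal]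
  constructor
  · intro h
    rw [Filter.eventually_comap] at h
    filter_upwards [h] with n hn a ha
    exact hn (n, a) rfl ha
  · intro h
    rw [Filter.eventually_comap]
    filter_upwards [h] with n hn p hp hD
    have := hn p.2 (by rw [← hp]; exact hD)
    rw [← hp] at this
    exact this

/-- an event of `n` only -/
theorem ev_n {P : ℕ → Prop} (h : ∀ᶠ n in atTop, P n) : ∀ᶠ p in FD D, P p.1 :=
  ev_iff.2 (h.mono fun _ hn _ _ => hn)

/-- a property of the domain -/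
theorem ev_D {P : ℕ × α → Prop} (h : ∀ n a, D n a → P (n, a)) : ∀ᶠ p in FD D, P p :=
  ev_iff.2 (Eventually.of_forall h)

/-- a smaller domain -/
theorem FD_mono {D' : ℕ → α → Prop} (h : ∀ n a, D' n a → D n a) : FD D' ≤ FD D := by
  unfold FD
  exact inf_le_inf_left _ (Filter.principal_mono.2 fun p hp => h _ _ hp)

section big

variable {F : Filter (ℕ × α)} {f g f1 f2 g1 g2 : ℕ × α → ℝ}

/-- an estimate with a constant -/
theorem bigO_of_le {C : ℝ} (h : ∀ᶠ p in F, |f p| ≤ C * g p) : f =O[F] g := by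
  refine IsBigO.of_bound |C| ?_
  filter_upwards [h] with p hp
  rw [Real.norm_eq_abs, Real.norm_eq_abs, ← abs_mul]
  exact hp.trans (le_abs_self _)

theorem bigO_of_le_one (hf : ∀ᶠ p in F, 0 ≤ f p) (h : ∀ᶠ p in F, f p ≤ g p) : f =O[F] g :=
  bigO_of_le (C := 1) (by
    filter_upwards [hf, h] with p h1 h2
    rw [abs_of_nonneg h1, one_mul]
    exact h2)

/-- the constant -/
theorem exists_le (h : f =O[F] g) : ∃ C : ℝ, 0 < C ∧ ∀ᶠ p in F, |f p| ≤ C * |g p| := by
  obtain ⟨C, hC, h1⟩ := h.exists_pos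
  exact ⟨C, hC, by simpa only [Real.norm_eq_abs] using h1.bound⟩

/-- square roots -/
theorem bigO_sqrt (h : f =O[F] g) : (fun p => √(f p)) =O[F] fun p => √|g p| := by
  obtain ⟨C, hC, h1⟩ := exists_le h
  refine IsBigO.of_bound (√C) ?_
  filter_upwards [h1] with p hp
  rw [Real.norm_eq_abs, Real.norm_eq_abs, abs_of_nonneg (Real.sqrt_nonneg _),
    abs_of_nonneg (Real.sqrt_nonneg _), ← Real.sqrt_mul hC.le]
  exact Real.sqrt_le_sqrt ((le_abs_self _).trans hp)

/-- the sum is of the size of a common bound -/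
theorem bigO_add (h1 : f1 =O[F] g) (h2 : f2 =O[F] g) : (fun p => f1 p + f2 p) =O[F] g :=
  h1.add h2

theorem bigO_mul (h1 : f1 =O[F] g1) (h2 : f2 =O[F] g2) :
    (fun p => f1 p * f2 p) =O[F] fun p => g1 p * g2 p :=
  h1.mul h2

theorem bigO_pow (h : f =O[F] g) (k : ℕ) : (fun p => f p ^ k) =O[F] fun p => g p ^ k :=
  h.pow k

/-- monotonicity for nonnegative functions -/
theorem bigO_mono (h0 : ∀ᶠ p in F, 0 ≤ f p) (h : ∀ᶠ p in F, f p ≤ f1 p) (h1 : f1 =O[F] g) :
    f =O[F] g :=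
  (bigO_of_le_one h0 h).trans h1

end big

/-- **Monomials.** -/
noncomputable def mo (n y V T a b c d : ℝ) : ℝ := n ^ a * y ^ b * V ^ c * T ^ d

section mono

variable {n y V T : ℝ} (a b c d a' b' c' d' : ℝ)

theorem mo_pos (hn : 0 < n) (hy : 0 < y) (hV : 0 < V) (hT : 0 < T) : 0 < mo n y V T a b c d := by
  unfold mo
  positivity

theorem log_mo (hn : 0 < n) (hy : 0 < y) (hV : 0 < V) (hT : 0 < T) :
    Real.log (mo n y V T a b c d) =
      a * Real.log n + b * Real.log y + c * Real.log V + d * Real.log T := by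
  unfold mo
  rw [Real.log_mul (by positivity) (by positivity), Real.log_mul (by positivity) (by positivity),
    Real.log_mul (by positivity) (by positivity), Real.log_rpow hn, Real.log_rpow hy,
    Real.log_rpow hV, Real.log_rpow hT]

theorem mo_mul (hn : 0 < n) (hy : 0 < y) (hV : 0 < V) (hT : 0 < T) :
    mo n y V T a b c d * mo n y V T a' b' c' d' =
      mo n y V T (a + a') (b + b') (c + c') (d + d') := by
  unfold mo
  rw [Real.rpow_add hn, Real.rpow_add hy, Real.rpow_add hV, Real.rpow_add hT]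
  ring

theorem mo_rpow (hn : 0 < n) (hy : 0 < y) (hV : 0 < V) (hT : 0 < T) (q : ℝ) :
    mo n y V T a b c d ^ q = mo n y V T (a * q) (b * q) (c * q) (d * q) := by
  unfold mo
  rw [Real.mul_rpow (by positivity) (by positivity), Real.mul_rpow (by positivity) (by positivity),
    Real.mul_rpow (by positivity) (by positivity), ← Real.rpow_mul hn.le, ← Real.rpow_mul hy.le,
    ← Real.rpow_mul hV.le, ← Real.rpow_mul hT.le]

theorem mo_pow (hn : 0 < n) (hy : 0 < y) (hV : 0 < V) (hT : 0 < T) (k : ℕ) :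
    mo n y V T a b c d ^ k = mo n y V T (a * k) (b * k) (c * k) (d * k) := by
  rw [← mo_rpow a b c d hn hy hV hT, Real.rpow_natCast]

theorem mo_sqrt (hn : 0 < n) (hy : 0 < y) (hV : 0 < V) (hT : 0 < T) :
    √(mo n y V T a b c d) = mo n y V T (a / 2) (b / 2) (c / 2) (d / 2) := by
  rw [Real.sqrt_eq_rpow, mo_rpow a b c d hn hy hV hT]
  congr 1 <;> ring

theorem mo_inv (hn : 0 < n) (hy : 0 < y) (hV : 0 < V) (hT : 0 < T) :
    (mo n y V T a b c d)⁻¹ = mo n y V T (-a) (-b) (-c) (-d) := by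
  unfold mo
  rw [Real.rpow_neg hn.le, Real.rpow_neg hy.le, Real.rpow_neg hV.le, Real.rpow_neg hT.le]
  simp only [mul_inv]

theorem mo_div (hn : 0 < n) (hy : 0 < y) (hV : 0 < V) (hT : 0 < T) :
    mo n y V T a b c d / mo n y V T a' b' c' d' =
      mo n y V T (a - a') (b - b') (c - c') (d - d') := by
  rw [div_eq_mul_inv, mo_inv a' b' c' d' hn hy hV hT, mo_mul _ _ _ _ _ _ _ _ hn hy hV hT]
  congr 1

theorem mo_n (a : ℝ) : mo n y V T a 0 0 0 = n ^ a := by
  simp [mo]

theorem mo_y (a : ℝ) : mo n y V T 0 a 0 0 = y ^ a := by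
  simp [mo]

theorem mo_V (a : ℝ) : mo n y V T 0 0 a 0 = V ^ a := by
  simp [mo]

theorem mo_T (a : ℝ) : mo n y V T 0 0 0 a = T ^ a := by
  simp [mo]

theorem mo_zero : mo n y V T 0 0 0 0 = 1 := by
  simp [mo]

theorem mo_ny (a b : ℝ) : mo n y V T a b 0 0 = n ^ a * y ^ b := by
  simp [mo]

/-- comparison through logarithms -/
theorem mo_le (hn : 0 < n) (hy : 0 < y) (hV : 0 < V) (hT : 0 < T) {K : ℝ}
    (h : a * Real.log n + b * Real.log y + c * Real.log V + d * Real.log T ≤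
      a' * Real.log n + b' * Real.log y + c' * Real.log V + d' * Real.log T + K) :
    mo n y V T a b c d ≤ Real.exp K * mo n y V T a' b' c' d' := by
  have h1 := mo_pos a b c d hn hy hV hT
  have h2 := mo_pos a' b' c' d' hn hy hV hT
  refine (Real.log_le_log_iff h1 (by positivity)).1 ?_
  rw [Real.log_mul (by positivity) h2.ne', Real.log_exp, log_mo a b c d hn hy hV hT,
    log_mo a' b' c' d' hn hy hV hT]
  linarith

theorem le_of_log {x z : ℝ} (hx : 0 < x) (hz : 0 < z) (h : Real.log x ≤ Real.log z) : x ≤ z :=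
  (Real.log_le_log_iff hx hz).1 h

end mono

/-- The variables of a domain: positive functions of the parameter. -/
structure Vars (D : ℕ → α → Prop) (y V T : α → ℝ) : Prop where
  y0 : ∀ n a, D n a → 0 < y a
  V0 : ∀ n a, D n a → 0 < V a
  T0 : ∀ n a, D n a → 0 < T a

/-- the monomial as a function on the domain -/
noncomputable def Mo (y V T : α → ℝ) (a b c d : ℝ) (p : ℕ × α) : ℝ :=
  mo (p.1 : ℝ) (y p.2) (V p.2) (T p.2) a b c d

section dom

variable {y V T : α → ℝ}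

theorem Vars.ev (h : Vars D y V T) : ∀ᶠ p in FD D, (1 : ℝ) < p.1 ∧ (0 : ℝ) < p.1 ∧ 0 < y p.2 ∧
    0 < V p.2 ∧ 0 < T p.2 := by
  refine ev_iff.2 ?_
  filter_upwards [eventually_ge_atTop 2] with n hn a ha
  have : (2 : ℝ) ≤ n := by exact_mod_cast hn
  exact ⟨by linarith, by linarith, h.y0 n a ha, h.V0 n a ha, h.T0 n a ha⟩

theorem Vars.pos (h : Vars D y V T) (a b c d : ℝ) : ∀ᶠ p in FD D, 0 < Mo y V T a b c d p := by
  filter_upwards [h.ev] with p hp
  obtain ⟨_, h1, h2, h3, h4⟩ := hp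
  exact mo_pos _ _ _ _ h1 h2 h3 h4

/-- **Comparison of monomials** : linear in the logarithms. -/
theorem Vars.mo_O (h : Vars D y V T) {a b c d a' b' c' d' : ℝ} (K : ℝ)
    (hl : ∀ᶠ p : ℕ × α in FD D, a * Real.log p.1 + b * Real.log (y p.2) + c * Real.log (V p.2) +
      d * Real.log (T p.2) ≤ a' * Real.log p.1 + b' * Real.log (y p.2) + c' * Real.log (V p.2) +
        d' * Real.log (T p.2) + K) :
    Mo y V T a b c d =O[FD D] Mo y V T a' b' c' d' := by
  refine bigO_of_le (C := Real.exp K) ?_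
  filter_upwards [h.ev, hl] with p hp h1
  obtain ⟨_, q1, q2, q3, q4⟩ := hp
  unfold Mo
  rw [abs_of_pos (mo_pos _ _ _ _ q1 q2 q3 q4)]
  exact mo_le _ _ _ _ _ _ _ _ q1 q2 q3 q4 h1

/-- products of sizes -/
theorem Vars.mul (h : Vars D y V T) {f g : ℕ × α → ℝ} {a b c d a' b' c' d' : ℝ}
    (hf : f =O[FD D] Mo y V T a b c d) (hg : g =O[FD D] Mo y V T a' b' c' d') :
    (fun p => f p * g p) =O[FD D] Mo y V T (a + a') (b + b') (c + c') (d + d') := by
  refine (hf.mul hg).trans (bigO_of_le (C := 1) ?_)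
  filter_upwards [h.ev] with p hp
  obtain ⟨_, q1, q2, q3, q4⟩ := hp
  unfold Mo
  rw [mo_mul _ _ _ _ _ _ _ _ q1 q2 q3 q4, abs_of_pos (mo_pos _ _ _ _ q1 q2 q3 q4), one_mul]

/-- powers of sizes -/
theorem Vars.pow (h : Vars D y V T) {f : ℕ × α → ℝ} {a b c d : ℝ}
    (hf : f =O[FD D] Mo y V T a b c d) (k : ℕ) :
    (fun p => f p ^ k) =O[FD D] Mo y V T (a * k) (b * k) (c * k) (d * k) := by
  refine (hf.pow k).trans (bigO_of_le (C := 1) ?_)
  filter_upwards [h.ev] with p hp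
  obtain ⟨_, q1, q2, q3, q4⟩ := hp
  unfold Mo
  rw [mo_pow _ _ _ _ q1 q2 q3 q4, abs_of_pos (mo_pos _ _ _ _ q1 q2 q3 q4), one_mul]

/-- square roots of sizes -/
theorem Vars.sqrt (h : Vars D y V T) {f : ℕ × α → ℝ} {a b c d : ℝ}
    (hf : f =O[FD D] Mo y V T a b c d) :
    (fun p => √(f p)) =O[FD D] Mo y V T (a / 2) (b / 2) (c / 2) (d / 2) := by
  refine (bigO_sqrt hf).trans (bigO_of_le (C := 1) ?_)
  filter_upwards [h.ev] with p hp
  obtain ⟨_, q1, q2, q3, q4⟩ := hp
  have h1 : |Mo y V T a b c d p| = Mo y V T a b c d p :=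
    abs_of_pos (mo_pos _ _ _ _ q1 q2 q3 q4)
  rw [h1]
  unfold Mo
  rw [mo_sqrt _ _ _ _ q1 q2 q3 q4, abs_of_pos (mo_pos _ _ _ _ q1 q2 q3 q4), one_mul]

/-- a divisor bounded from below by a size -/
theorem Vars.div (h : Vars D y V T) {f g : ℕ × α → ℝ} {a b c d a' b' c' d' C : ℝ} (hC : 0 < C)
    (hf : f =O[FD D] Mo y V T a b c d) (hg : ∀ᶠ p in FD D, C * Mo y V T a' b' c' d' p ≤ g p) :
    (fun p => f p / g p) =O[FD D] Mo y V T (a - a') (b - b') (c - c') (d - d') := by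
  obtain ⟨K, hK, h1⟩ := exists_le hf
  refine bigO_of_le (C := K / C) ?_
  filter_upwards [h.ev, h1, hg] with p hp h2 h3
  obtain ⟨_, q1, q2, q3, q4⟩ := hp
  have m1 := mo_pos a b c d q1 q2 q3 q4
  have m2 := mo_pos a' b' c' d' q1 q2 q3 q4
  have h4 : 0 < g p := lt_of_lt_of_le (mul_pos hC m2) h3
  rw [abs_div, abs_of_pos h4]
  have h5 : |f p| ≤ K * mo (p.1 : ℝ) (y p.2) (V p.2) (T p.2) a b c d := by
    have e : |Mo y V T a b c d p| = mo (p.1 : ℝ) (y p.2) (V p.2) (T p.2) a b c d := abs_of_pos m1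
    rw [e] at h2
    exact h2
  have e : K / C * Mo y V T (a - a') (b - b') (c - c') (d - d') p =
      (K * mo (p.1 : ℝ) (y p.2) (V p.2) (T p.2) a b c d) /
        (C * mo (p.1 : ℝ) (y p.2) (V p.2) (T p.2) a' b' c' d') := by
    unfold Mo
    rw [← mo_div _ _ _ _ _ _ _ _ q1 q2 q3 q4]
    field_simp
  rw [e]
  exact div_le_div₀ (by positivity) h5 (mul_pos hC m2) h3

/-- **The end of an estimate**: a function of size `n ^ (a - θ) ..` is at most `ε n ^ a ..`. -/
theorem Vars.fin (h : Vars D y V T) {f : ℕ × α → ℝ} {a b c d θ ε : ℝ} (hθ : 0 < θ) (hε : 0 < ε)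
    (hf : f =O[FD D] Mo y V T (a - θ) b c d) :
    ∀ᶠ n : ℕ in atTop, ∀ s, D n s → |f (n, s)| ≤ ε * mo n (y s) (V s) (T s) a b c d := by
  obtain ⟨K, hK, h1⟩ := exists_le hf
  have h2 : ∀ᶠ n : ℕ in atTop, K / ε ≤ (n : ℝ) ^ θ :=
    ((tendsto_rpow_atTop hθ).comp tendsto_natCast_atTop_atTop).eventually_ge_atTop _
  have h3 : ∀ᶠ p in FD D, |f p| ≤ ε * Mo y V T a b c d p := by
    filter_upwards [h.ev, h1, ev_n h2] with p hp h4 h5
    obtain ⟨_, q1, q2, q3, q4⟩ := hp
    have m1 := mo_pos (a - θ) b c d q1 q2 q3 q4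
    have e : |Mo y V T (a - θ) b c d p| = mo (p.1 : ℝ) (y p.2) (V p.2) (T p.2) (a - θ) b c d :=
      abs_of_pos m1
    rw [e] at h4
    refine h4.trans ?_
    rw [div_le_iff₀ hε] at h5
    have e2 : Mo y V T a b c d p = (p.1 : ℝ) ^ θ *
        mo (p.1 : ℝ) (y p.2) (V p.2) (T p.2) (a - θ) b c d := by
      unfold Mo mo
      have : (p.1 : ℝ) ^ a = (p.1 : ℝ) ^ θ * (p.1 : ℝ) ^ (a - θ) := by
        rw [← Real.rpow_add q1]
        congr 1
        ring
      rw [this]
      ring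
    rw [e2]
    calc K * mo (p.1 : ℝ) (y p.2) (V p.2) (T p.2) (a - θ) b c d
        ≤ ((p.1 : ℝ) ^ θ * ε) * mo (p.1 : ℝ) (y p.2) (V p.2) (T p.2) (a - θ) b c d :=
          mul_le_mul_of_nonneg_right h5 m1.le
      _ = _ := by ring
  exact ev_iff.1 h3

end dom

end Vale.Agent.P146.H620.Sz
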